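import Vale.Agent.P216.H539.ToXL
import Vale.Agent.P216.H962.SignGoal
import Vale.Agent.P216.H754B.Pw
import Vale.Agent.P216.H456.PTriv

/-!
# P216-B, R2, [R-G]: the assembly of `XRhoGoal`
-/

set_option linter.all false

open Set BoundedContinuousFunction

namespace Vale.Agent.P216.ToXL

open Vale.Agent.P216.AS Vale.Agent.P216.H901 Vale.Agent.P216.PS Vale.Agent.P216.MV337
open Vale.Agent.P216.B64 Vale.Agent.P216.H754B Vale.Agent.P216.H971 Vale.Agent.P216.H456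
open Vale.Agent.P216.GM
open Vale.Agent.P216.L250 (XE LM fn)

def StRD : Prop := ∀ (m : ℕ), 3 ≤ m → ∀ (M : Type) [MetricSpace M] [CompactSpace M] (ρ : ℝ),
  0 < ρ → LS.UniqSeg M ρ → Nonempty (M ≃ₜ Sph (m + 1)) →
  ∃ (x₀ : M) (C : Caps (m + 1) M x₀) (ℓ : ℝ) (Tp Tm : M → ℝ → M) (hp : MV337.Tr C.Dp x₀ ℓ Tp)
    (hm : MV337.Tr C.Dm x₀ ℓ Tm) (f : C(M, M)) (φ : ℝ → ℝ) (R : (ℝ →ᵇ M) → (ℝ →ᵇ M))
    (δ lam η : ℝ), f x₀ = x₀ ∧ TrivMap (MV337.trivOf C hp hm) f φ R R ∧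
    TrivMap (ptrivOf C hp hm) f φ R R ∧ η ≤ ρ / 8 ∧ MooreMap f φ R δ lam η

section Act

variable {E : Type} [PseudoMetricSpace E] {k : Type} [Field k] {A : ℝ → Set E} {hA hA' : Mono A}
  {φ : ℝ → ℝ} {R : E → E} {q : ℕ}

/-- the action is determined -/
theorem act_uniq (hφ : ∀ s, 0 < s → 0 < φ s) (hR : ∀ s, 0 < s → IsMap (tr E) (tr E) (A s) (A (φ s)) R)
    {o o₁ : (PMa k A hA q).Fam} {o₂ : (PMa k A hA' q).Fam}
    (h₁ : ActOn hA φ R o o₁) (h₂ : ActOn hA' φ R o o₂) (s : ℝ) (hs : 0 < s) :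
    (o₁.z s hs : Ha (tr E) (on k) (A s) q) = o₂.z s hs :=
  (h₁ s (φ s) hs (hφ s hs) le_rfl (hR s hs)).symm.trans (h₂ s (φ s) hs (hφ s hs) le_rfl (hR s hs))

/-- **The class of degree `0` is fixed.** -/
theorem act_zero (hφ : ∀ s, 0 < s → 0 < φ s)
    (hR : ∀ s, 0 < s → IsMap (tr E) (tr E) (A s) (A (φ s)) R) (hne : ∀ t, 0 < t → (A t).Nonempty)
    {o o₁ : (PMa k A hA 0).Fam} {B : ℝ} (hB : 0 ≤ B) (ho : (PMa k A hA 0).Line o B)
    (h₁ : ActOn hA φ R o o₁) (s : ℝ) (hs : 0 < s) : o₁.z s hs = o.z s hs := by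
  obtain ⟨a, ha⟩ := ho.fam hB (oneF k A hA)
  have ha0 : a ≠ 0 := by
    rintro rfl
    have h1 := ha s hs
    rw [zero_smul] at h1
    exact one0_ne k (hne s hs) h1
  have e1 := h₁ s (φ s) hs (hφ s hs) le_rfl (hR s hs)
  have e2 : ∀ t (ht : 0 < t), o.z t ht = a⁻¹ • (oneF k A hA).z t ht := fun t ht => by
    rw [ha t ht, smul_smul, inv_mul_cancel₀ ha0, one_smul]
  have e3 : pull (on k) (hR s hs) 0 (a⁻¹ • (one0 k (A (φ s)))) = a⁻¹ • one0 k (A s) :=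
    (map_smul (pull (on k) (hR s hs) 0) a⁻¹ (one0 k (A (φ s)))).trans rfl
  rw [← e1, e2 s hs, e2 (φ s) (hφ s hs)]
  exact e3

/-- the action on all families in the degree of a line -/
theorem act_line {o : (PMa k A hA q).Fam} {o₁ : (PMa k A hA q).Fam} {B : ℝ} (hB : 0 ≤ B)
    (ho : (PMa k A hA q).Line o B) (h₁ : ActOn hA φ R o o₁) {e : k}
    (he : ∀ s hs, o₁.z s hs = e • o.z s hs) (z : (PMa k A hA' q).Fam) :
    ActOn hA' φ R z (PM.Fam.smul e z) := by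
  intro s t hs ht hst h
  obtain ⟨a, ha⟩ := ho.fam hB (z : (PMa k A hA q).Fam)
  have e1 : pull (on k) h q (o.z t ht) = e • o.z s hs := (h₁ s t hs ht hst h).trans (he s hs)
  have e2 : pull (on k) h q (a • (o.z t ht : Ha (tr E) (on k) (A t) q)) =
      a • pull (on k) h q (o.z t ht) := map_smul _ _ _
  have e3 : a • (e • (o.z s hs : Ha (tr E) (on k) (A s) q)) =
      e • (a • (o.z s hs : Ha (tr E) (on k) (A s) q)) := by
    rw [smul_smul, smul_smul, mul_comm]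
  refine (congrArg (pull (on k) h q) (ha t ht)).trans ?_
  refine e2.trans ?_
  rw [e1]
  refine e3.trans ?_
  change _ = e • z.z s hs
  rw [ha s hs]

end Act

/-- **[R-G]** -/
theorem xRhoGoal_of (hO : OmegaGoal0) (hW : StWangF) (hD : StRD) : XRhoGoal := by
  intro n hn h4 M _ _ ρ hρ hU he
  obtain ⟨B₀, hB₀, hX⟩ := xGoal_of MR.stMoore (flGoal_of hO H962.signGoal) n (by omega) M ρ hρ hU he
  obtain ⟨m, rfl⟩ : ∃ m, n = m + 1 := ⟨n - 1, by omega⟩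
  obtain ⟨x₀, C, ℓ, Tp, Tm, hp, hm, f, φ, R, δ, lam, η, -, tF, tP, hη, hMo⟩ :=
    hD m (by omega) M ρ hρ hU he
  obtain ⟨B, hB, hO'⟩ := hO (m + 1) (by omega) M ρ hρ hU he x₀
  obtain ⟨B₁, hF₁⟩ := free_of_triv (by omega : 2 ≤ m) (trivOf C hp hm) B B 0 hB.le hB.le
  obtain ⟨B₂, hF₂⟩ := free_of_triv (by omega : 2 ≤ m) (ptrivOf C hp hm) B B 0 hB.le hB.le
  refine ⟨f, ρ / 8, B₀, by positivity, hB₀, fun k _ h2 => ?_⟩
  obtain ⟨X⟩ := hX k h2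
  obtain ⟨O⟩ := hO' k h2
  obtain ⟨b, -⟩ : ∃ b : Based m (fun q => GP k x₀ q) B B 0, b = basedOf hB.le O := ⟨_, rfl⟩
  obtain ⟨F₁'⟩ := hF₁ k h2 b
  have F₁ := Free.mono F₁' (le_max_left B₁ 0)
  obtain ⟨F₂⟩ := hF₂ k h2 b
  obtain ⟨W₁, G₁, H₁⟩ := hW _ _ M m _ _ _ _ (trivOf C hp hm) f φ R R tF k h2
  obtain ⟨W₂, G₂, -⟩ := hW _ _ M m _ _ _ _ (ptrivOf C hp hm) f φ R R tP k h2
  -- the signs of the `om j`
  have hε : ∀ j, ∃ ε : k, ∀ t ht, ((W₁.OG (m * j)).f (b.om j)).z t ht = ε • (b.om j).z t ht :=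
    fun j => (b.line j).fam hB.le _
  choose ε hε using hε
  have hε₂ : ∀ j t ht, ((W₂.OG (m * j)).f (b.om j)).z t ht = ε j • (b.om j).z t ht := by
    intro j t ht
    have := act_uniq tF.φ_pos tF.S_map (G₁ (m * j) (b.om j)) (G₂ (m * j) (b.om j)) t ht
    rw [← hε j t ht]
    exact this.symm
  have hrec : ∀ j, ε (j + 1) = -1 * ε j := fun j =>
    W₂.cf F₂ hε₂ j (pw_cf_ne (by omega) C hp hm h2 F₂ j)
  have hne : ∀ t, 0 < t → (P x₀ x₀ t).Nonempty := fun t ht =>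
    ⟨BoundedContinuousFunction.const ℝ x₀, fun u v => by simp, fun _ _ => rfl, fun _ _ => rfl⟩
  have h0 : ε 0 = 1 := by
    refine b.canc 0 _ _ fun t ht => ?_
    rw [← hε 0 t ht, one_smul]
    exact act_zero tF.φ_pos tF.S_map hne hB.le (b.line 0) (G₁ (m * 0) (b.om 0)) t ht
  have hj : ∀ j, ε j = (-1 : k) ^ j := by
    intro j
    induction j with
    | zero => rw [h0, pow_zero]
    | succ j ih => rw [hrec, ih, pow_succ]; ring
  have hB' : (0 : ℝ) ≤ max B₁ 0 := le_max_right _ _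
  have kx : ∀ j, ∀ o : (XP k M (m * j)).Fam, ActOn mono_FL φ R o (PM.Fam.smul ((-1 : k) ^ j) o) :=
    fun j => act_line hB' (F₁.line_x j) (H₁ _ (F₁.x j)) fun t ht => by
      rw [← hj]
      exact W₁.x F₁ hε hB' j t ht
  have ky : ∀ j, ∀ o : (XP k M (m * j + (m + 1))).Fam,
      ActOn mono_FL φ R o (PM.Fam.smul ((-1 : k) ^ (j + 1)) o) :=
    fun j => act_line hB' (F₁.line_y j) (H₁ _ (F₁.y j)) fun t ht => by
      have e1 : (-1 : k) ^ (j + 1) = -1 * ε j := by rw [hj, pow_succ, mul_comm]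
      rw [e1]
      exact W₁.y F₁ hε j t ht
  have keyx : ∀ (q j : ℕ), q = m * j → ∀ (s T : ℝ) (R' : LM M → LM M)
      (h : UMap (XL M s) (XL M T) R'), 0 ≤ s → 0 ≤ T → Approx f (ρ / 8) s R' →
      hpull k h q (X.g q T) = (-1 : k) ^ j • X.g q s := by
    rintro q j rfl
    exact stToXL M ρ hρ hU f φ R δ lam η hη hMo k (m + 1) B₀ X (m * j) _ (kx j)
  have keyy : ∀ (q j : ℕ), q = m * j + (m + 1) → ∀ (s T : ℝ) (R' : LM M → LM M)
      (h : UMap (XL M s) (XL M T) R'), 0 ≤ s → 0 ≤ T → Approx f (ρ / 8) s R' →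
      hpull k h q (X.g q T) = (-1 : k) ^ (j + 1) • X.g q s := by
    rintro q j rfl
    exact stToXL M ρ hρ hU f φ R δ lam η hη hMo k (m + 1) B₀ X (m * j + (m + 1)) _ (ky j)
  have hkk : ∀ i, kk (m + 1) i = i + 1 := fun i => by
    unfold kk
    rw [if_pos (by omega)]
  refine ⟨X, fun s T R' h hs hT hR => ⟨?_, fun i => ?_, fun i => ?_⟩⟩
  · have := keyx 0 0 (by simp) s T R' h hs hT hR
    rwa [pow_zero, one_smul] at this
  · refine keyx _ (i + 1) ?_ s T R' h hs hT hR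
    rw [hkk, Nat.add_sub_cancel, mul_comm]
  · refine keyy _ i ?_ s T R' h hs hT hR
    rw [hkk, Nat.add_sub_cancel]
    ring

end Vale.Agent.P216.ToXL
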