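import Vale.Agent.P216.MV337.MooreDefs
import Vale.Agent.P216.MV337.Pg
import Vale.Agent.P216.LS.Maps

/-!
# P216-B, block [MV] / W6: Moore loops and energy sublevels, common definitions

* `KN ρ t`: number of pieces;
* `gM t w`: the loop `s ↦ w (t s)` of a Moore loop;
* `fM ρ ε t γ`: the polygonal Moore loop of a loop of energy `≤ t ^ 2`;
* `isHtpy_pg`: homotopies of polygonal Moore loops.
-/

set_option linter.all false

namespace Vale.Agent.P216.MR

open Set Filter Topology BoundedContinuousFunction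
open Vale.Agent.P216.PS
open Vale.Agent.P216.AS
open Vale.Agent.P216.MV337 (FL FL_subset_PP FL_mono pg cs cs_zero cs_succ cs_nonneg cs_le cs_const
  pg_of_nonpos pg_of_ge pg_succ pg_succ_ge pg_succ_le pg_congr dist_pg_le continuousOn_pg)
open Vale.Agent.P216.L250 (XE LM fn ofFn HasE Cert hasE_of_cert)
open Vale.Agent.P216.LS (UniqSeg seg)
open Vale.Agent.P216.H901 (tr Hp)

variable {M : Type} [MetricSpace M] {ρ ε δ s t T u : ℝ} {N : ℕ}

/-! ### The number of pieces -/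

/-- the number of pieces -/
noncomputable def KN (ρ t : ℝ) : ℕ := ⌊(t / ρ) ^ 2⌋₊ + 1

theorem KN_pos (ρ t : ℝ) : 0 < KN ρ t := Nat.succ_pos _

theorem KN_cast_pos (ρ t : ℝ) : (0 : ℝ) < KN ρ t := Nat.cast_pos.2 (KN_pos ρ t)

theorem one_le_KN (ρ t : ℝ) : (1 : ℝ) ≤ KN ρ t := by exact_mod_cast KN_pos ρ t

theorem lt_KN (hρ : 0 < ρ) (t : ℝ) : t ^ 2 < KN ρ t * ρ ^ 2 := by
  have h := Nat.lt_floor_add_one ((t / ρ) ^ 2)
  have h2 : (t / ρ) ^ 2 < (KN ρ t : ℝ) := by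
    rw [KN]; push_cast; exact h
  rwa [div_pow, div_lt_iff₀ (by positivity)] at h2

theorem KN_mono (hρ : 0 < ρ) (hs : 0 ≤ s) (h : s ≤ t) : KN ρ s ≤ KN ρ t := by
  unfold KN
  gcongr

theorem sq_lt_KN (hρ : 0 < ρ) (hs : 0 ≤ s) (h : s ≤ t) : s ^ 2 < KN ρ t * ρ ^ 2 :=
  (pow_le_pow_left₀ hs h 2).trans_lt (lt_KN hρ t)

theorem div_KN_lt (hρ : 0 < ρ) (hs : 0 ≤ s) (h : s ≤ t) : s / KN ρ t < ρ := by
  have h1 := sq_lt_KN hρ hs h
  have h2 := one_le_KN ρ t
  have h3 := KN_cast_pos ρ t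
  rw [div_lt_iff₀ h3]
  refine lt_of_pow_lt_pow_left₀ 2 (by positivity) (h1.trans_le ?_)
  have : (KN ρ t : ℝ) ≤ (KN ρ t : ℝ) ^ 2 := by nlinarith
  calc (KN ρ t : ℝ) * ρ ^ 2 ≤ (KN ρ t : ℝ) ^ 2 * ρ ^ 2 := mul_le_mul_of_nonneg_right this (sq_nonneg _)
    _ = (ρ * KN ρ t) ^ 2 := by ring

/-! ### From Moore loops to loops -/

theorem periodic_fr (w : ℝ → M) (t : ℝ) : Function.Periodic (fun σ : ℝ => w (t * Int.fract σ)) 1 := by
  intro σ
  simp only [Int.fract_add_one]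

open Classical in
/-- the loop `σ ↦ w (t σ)` of a Moore loop `w` of time `t` -/
noncomputable def gM (t : ℝ) (w : ℝ →ᵇ M) : LM M :=
  if h : Continuous (fun σ : ℝ => w (t * Int.fract σ)) then ofFn _ h (periodic_fr w t)
  else ofFn (fun _ => w 0) continuous_const fun _ => rfl

theorem fr_apply {w : ℝ →ᵇ M} (hw : w ∈ FL M t) {σ : ℝ} (hσ : σ ∈ Icc (0:ℝ) 1) :
    w (t * Int.fract σ) = w (t * σ) := by
  rcases hσ.2.eq_or_lt with rfl | h
  · rw [Int.fract_one, mul_zero, mul_one, hw.2.2 t le_rfl]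
  · rw [Int.fract_eq_self.2 ⟨hσ.1, h⟩]

theorem hasE_fr (ht : 0 ≤ t) {w : ℝ →ᵇ M} (hw : w ∈ FL M t) :
    HasE (fun σ : ℝ => w (t * Int.fract σ)) (t ^ 2) := by
  refine hasE_of_cert (periodic_fr w t) (e := fun σ => t ^ 2 * σ) ?_ (by ring)
  intro a b ha hab hb
  show dist (w (t * Int.fract a)) (w (t * Int.fract b)) ^ 2 ≤ (b - a) * (t ^ 2 * b - t ^ 2 * a)
  rw [fr_apply hw ⟨ha, hab.trans hb⟩, fr_apply hw ⟨ha.trans hab, hb⟩]
  have h1 := hw.1 (t * a) (t * b)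
  have h2 : |t * a - t * b| = t * (b - a) := by
    rw [← mul_sub, abs_mul, abs_of_nonneg ht, abs_sub_comm, abs_of_nonneg (by linarith)]
  rw [h2] at h1
  calc dist (w (t * a)) (w (t * b)) ^ 2 ≤ (t * (b - a)) ^ 2 := pow_le_pow_left₀ dist_nonneg h1 2
    _ = _ := by ring

theorem fn_gM (ht : 0 ≤ t) {w : ℝ →ᵇ M} (hw : w ∈ FL M t) (σ : ℝ) :
    fn (gM t w) σ = w (t * Int.fract σ) := by
  have h : Continuous (fun σ : ℝ => w (t * Int.fract σ)) := LS.HasE.continuous' (hasE_fr ht hw)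
  rw [gM, dif_pos h, L250.fn_ofFn]

theorem fn_gM_Icc (ht : 0 ≤ t) {w : ℝ →ᵇ M} (hw : w ∈ FL M t) {σ : ℝ} (hσ : σ ∈ Icc (0:ℝ) 1) :
    fn (gM t w) σ = w (t * σ) := by
  rw [fn_gM ht hw, fr_apply hw hσ]

theorem gM_mem (ht : 0 ≤ t) {w : ℝ →ᵇ M} (hw : w ∈ FL M t) : gM t w ∈ XE M t := by
  have h : fn (gM t w) = fun σ : ℝ => w (t * Int.fract σ) := funext (fn_gM ht hw)
  rw [L250.mem_XE, h]
  exact hasE_fr ht hw

/-! ### Polygonal Moore loops -/

/-- the data of a closed polygonal Moore loop of time at most `T` -/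
structure Good (ρ T : ℝ) (N : ℕ) (x : ℕ → M) (Δ : ℕ → ℝ) : Prop where
  pos : ∀ i < N, 0 < Δ i
  lt : ∀ i < N, dist (x i) (x (i + 1)) < ρ
  le : ∀ i < N, dist (x i) (x (i + 1)) ≤ Δ i
  tot : cs Δ N ≤ T
  cl : x N = x 0

section Good

variable {x : ℕ → M} {Δ : ℕ → ℝ}

theorem Good.lip (hU : UniqSeg M ρ) (h : Good ρ T N x Δ) : Lip (pg x Δ N) := fun u v => by
  have := dist_pg_le hU zero_le_one h.pos h.lt (fun i hi => by rw [one_mul]; exact h.le i hi) u v
  rwa [one_mul] at this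

theorem Good.mono (h : Good ρ T N x Δ) {T' : ℝ} (hT : T ≤ T') : Good ρ T' N x Δ :=
  ⟨h.pos, h.lt, h.le, h.tot.trans hT, h.cl⟩

theorem Good.nonneg (h : Good ρ T N x Δ) : 0 ≤ T := (cs_nonneg h.pos).trans h.tot

theorem Good.zero (h : Good ρ T N x Δ) : pg x Δ N 0 = x 0 := pg_of_nonpos h.pos le_rfl

variable [CompactSpace M]

theorem Good.mo_apply (hU : UniqSeg M ρ) (h : Good ρ T N x Δ) (u : ℝ) :
    mo (pg x Δ N) u = pg x Δ N u := (h.lip hU).mo_apply u

theorem Good.mem (hU : UniqSeg M ρ) (h : Good ρ T N x Δ) : mo (pg x Δ N) ∈ FL M T := by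
  refine MV337.P_subset_FL (a := x 0) (mo_mem (h.lip hU) (fun u hu => pg_of_nonpos h.pos hu)
    fun u hu => ?_)
  rw [pg_of_ge h.pos (h.tot.trans hu), h.cl]

end Good

/-- continuity of a family of polygonal Moore loops -/
theorem continuousOn_mo_pg [CompactSpace M] (hU : UniqSeg M ρ) {S : Type*} [TopologicalSpace S]
    {A : Set S} {X : S → ℕ → M} {D : S → ℕ → ℝ} (hT : 0 ≤ T)
    (hX : ∀ i ≤ N, ContinuousOn (fun s => X s i) A) (hD : ∀ i < N, ContinuousOn (fun s => D s i) A)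
    (hG : ∀ s ∈ A, Good ρ T N (X s) (D s)) :
    ContinuousOn (fun s => mo (pg (X s) (D s) N)) A := by
  refine continuousOn_of_eval hT (fun s hs => FL_subset_PP ((hG s hs).mem hU)) fun u => ?_
  refine (continuousOn_pg hU hX hD (continuousOn_const (c := u)) (fun s hs => (hG s hs).pos)
    fun s hs => (hG s hs).lt).congr fun s hs => ?_
  exact (hG s hs).mo_apply hU u

/-- **homotopies of polygonal Moore loops** -/
theorem isHtpy_pg [CompactSpace M] (hU : UniqSeg M ρ) {E : Type} [PseudoMetricSpace E] {X : Set E}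
    (hX : IsCompact X) (hT : 0 ≤ T) {x : ℝ → E → ℕ → M} {Δ : ℝ → E → ℕ → ℝ}
    (hx : ∀ i ≤ N, ContinuousOn (fun q : ℝ × E => x q.1 q.2 i) (Icc (0:ℝ) 1 ×ˢ X))
    (hΔ : ∀ i < N, ContinuousOn (fun q : ℝ × E => Δ q.1 q.2 i) (Icc (0:ℝ) 1 ×ˢ X))
    (hG : ∀ s ∈ Icc (0:ℝ) 1, ∀ e ∈ X, Good ρ T N (x s e) (Δ s e)) :
    IsHtpy (tr E) (tr (ℝ →ᵇ M)) X (FL M T) (fun s e => mo (pg (x s e) (Δ s e) N)) := by
  refine IsHtpy.of_continuousOn hX ?_ (fun s hs e he => (hG s hs e he).mem hU) fun s hs i => i.elim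
  exact continuousOn_mo_pg hU hT hx hΔ fun q hq => hG q.1 hq.1 q.2 hq.2

/-! ### Polygonal Moore loops of loops of finite energy -/

/-- the polygonal Moore loop of `γ` through the parameters `p i`, with extra durations `w i` -/
noncomputable def pl [CompactSpace M] (N : ℕ) (p w : ℕ → ℝ) (γ : LM M) : ℝ →ᵇ M :=
  mo (pg (fun i => fn γ (p i)) (fun i => dist (fn γ (p i)) (fn γ (p (i + 1))) + w i) N)

/-- the polygonal Moore loop of a loop of energy `≤ t ^ 2` -/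
noncomputable def fM [CompactSpace M] (ρ ε t : ℝ) (γ : LM M) : ℝ →ᵇ M :=
  pl (KN ρ t) (fun i => (i : ℝ) / KN ρ t) (fun _ => ε / KN ρ t) γ

theorem mono_of_step {p : ℕ → ℝ} (h : ∀ i < N, p i ≤ p (i + 1)) {i j : ℕ} (hij : i ≤ j)
    (hj : j ≤ N) : p i ≤ p j := by
  induction j, hij using Nat.le_induction with
  | base => exact le_rfl
  | succ n hn ih => exact (ih (by omega)).trans (h n (by omega))

/-- length of a polygon inscribed in a loop of energy `≤ s ^ 2` -/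
theorem length_le (hs : 0 < s) {γ : LM M} (hγ : γ ∈ XE M s) {p : ℕ → ℝ} (hp0 : p 0 = 0)
    (hpN : p N = 1) (hpm : ∀ i < N, p i ≤ p (i + 1)) :
    ∑ i ∈ Finset.range N, dist (fn γ (p i)) (fn γ (p (i + 1))) ≤ s := by
  obtain ⟨e, h0, hc, h1⟩ := HasE.cert hγ
  have key : ∀ a b, a ≤ b → dist (fn γ a) (fn γ b) ≤ (s * (b - a) + (e b - e a) / s) / 2 := by
    intro a b hab
    have e1 := hc a b a b le_rfl hab le_rfl
    have e2 : 0 ≤ e b - e a := sub_nonneg.2 ((hc a b).mono_fun le_rfl hab le_rfl)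
    have e3 : 0 ≤ (s * (b - a) + (e b - e a) / s) / 2 := by
      have : 0 ≤ b - a := by linarith
      positivity
    refine le_of_sq_le_sq (e1.trans ?_) e3
    have e4 : (s * (b - a)) * ((e b - e a) / s) = (b - a) * (e b - e a) := by field_simp
    nlinarith [sq_nonneg (s * (b - a) - (e b - e a) / s)]
  calc ∑ i ∈ Finset.range N, dist (fn γ (p i)) (fn γ (p (i + 1)))
      ≤ ∑ i ∈ Finset.range N, ((s * p (i + 1) + e (p (i + 1)) / s) / 2 -
          (s * p i + e (p i) / s) / 2) := Finset.sum_le_sum fun i hi => by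
        refine (key _ _ (hpm i (Finset.mem_range.1 hi))).trans_eq ?_
        ring
    _ = (s * p N + e (p N) / s) / 2 - (s * p 0 + e (p 0) / s) / 2 :=
        Finset.sum_range_sub (fun i => (s * p i + e (p i) / s) / 2) N
    _ = s := by
        have h2 := h1 0
        rw [zero_add, h0, zero_add] at h2
        rw [hpN, hp0, h0, h2]
        field_simp
        ring

theorem good_pl (hs : 0 < s) (hρ : 0 < ρ) {γ : LM M} (hγ : γ ∈ XE M s) {p w : ℕ → ℝ}
    (hp0 : p 0 = 0) (hpN : p N = 1) (hpm : ∀ i < N, p i ≤ p (i + 1))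
    (hpρ : ∀ i < N, (p (i + 1) - p i) * s ^ 2 < ρ ^ 2) (hw : ∀ i < N, 0 < w i)
    (hws : cs w N ≤ δ) : Good ρ (s + δ) N (fun i => fn γ (p i))
      (fun i => dist (fn γ (p i)) (fn γ (p (i + 1))) + w i) where
  pos i hi := add_pos_of_nonneg_of_pos dist_nonneg (hw i hi)
  lt i hi := by
    have h0 : 0 ≤ p i := hp0 ▸ mono_of_step hpm i.zero_le hi.le
    have h1 : p (i + 1) ≤ 1 := hpN ▸ mono_of_step hpm hi le_rfl
    have h2 := HasE.holder hγ (hpm i hi) (by linarith)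
    exact lt_of_pow_lt_pow_left₀ 2 hρ.le (h2.trans_lt (hpρ i hi))
  le i hi := le_add_of_nonneg_right (hw i hi).le
  tot := by
    have : cs (fun i => dist (fn γ (p i)) (fn γ (p (i + 1))) + w i) N =
        ∑ i ∈ Finset.range N, dist (fn γ (p i)) (fn γ (p (i + 1))) + cs w N := by
      unfold cs
      rw [Finset.sum_add_distrib]
    rw [this]
    exact add_le_add (length_le hs hγ hp0 hpN hpm) hws
  cl := by
    show fn γ (p N) = fn γ (p 0)
    rw [hp0, hpN]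
    have := L250.fn_periodic γ 0
    rwa [zero_add] at this

end Vale.Agent.P216.MR
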