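import Vale.Agent.P216.H539.MooreD
import Vale.Agent.P216.H894.MooreBr

/-!
# P216-B, block [MV] / W6: `StMoore`
-/

set_option linter.all false

namespace Vale.Agent.P216.MR

open Set BoundedContinuousFunction
open Vale.Agent.P216.MV337 (FL)
open Vale.Agent.P216.L250 (XE LM fn)
open Vale.Agent.P216.LS (UniqSeg)
open Vale.Agent.P216.H901 (SpIntl)

/-- the interleaving of the energy sublevels and the Moore-Lipschitz free loops -/
noncomputable def mooreIntl {M : Type} [MetricSpace M] [CompactSpace M] {ρ : ℝ} (hρ : 0 < ρ)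
    (hU : UniqSeg M ρ) {ε : ℝ} (hε : 0 < ε) :
    SpIntl (fun t => XE M t) (fun _ => (∅ : Set (LM M))) (fun t => FL M t)
      (fun _ => (∅ : Set (ℝ →ᵇ M))) ε where
  f t := fM ρ ε t
  g t := gM t
  f_map t ht := H894.f_map hρ hU hε ht
  f_sub t ht := fun _ hx => hx.elim
  g_map t ht := H894.g_map ht hε.le
  g_sub t ht := fun _ hx => hx.elim
  f_nat s t hs hst := f_nat hU hρ hε hs hst
  g_nat s t hs hst := g_nat hs hst (by linarith)
  gf t ht := H894.gf_MR hρ hU hε ht
  fg t ht := fg hU hρ hε ht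

/-- **[W6]** -/
theorem stMoore : MV337.StMoore := fun M _ _ ρ hρ hU ε hε =>
  ⟨mooreIntl hρ hU hε, fun t ht w hw s hs => fn_gM_Icc ht.le hw hs⟩

end Vale.Agent.P216.MR
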