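import Vale.Agent.P216.H140.W1Defs
import Vale.Agent.P216.H977C.E2

/-!
# P216-C, block C12-MID: `V3`
-/

open Set Finsupp BoundedContinuousFunction

namespace Vale.Agent.P216.W539

open Vale.Agent.P216.PS Vale.Agent.P216.Sl Vale.Agent.P216.H456 Vale.Agent.P216.MV337
open Vale.Agent.P216.N929 (Coc Fine Tau Scl evp cutp intg fib fib_mesh fib_map fib_congr mesh edge)
open Vale.Agent.P216.H754B (rv rv_mem_P)
open Vale.Agent.P216.H140 Vale.Agent.P216.H977C

theorem cutp_congr {M : Type} [MetricSpace M] [CompactSpace M] {r s : ℝ} {y : M}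
    {w w' : ℝ →ᵇ M} (h : ∀ v ≤ s, w v = w' v) : cutp r y (w, s) = cutp r y (w', s) := by
  rw [cutp, cutp]
  refine splice_congr fun v => ?_
  unfold spl
  split_ifs with h1 h2
  · exact h v h1
  · have h4 : w s = w' s := h s le_rfl
    simp only [h4]
  · rfl

theorem evp_congr {M : Type} [MetricSpace M] [CompactSpace M] {s : ℝ} {y : M}
    {w w' : ℝ →ᵇ M} (h : ∀ v ≤ s, w v = w' v) : evp y (w, s) = evp y (w', s) := by
  rw [evp, evp]
  simp only [h s le_rfl]

theorem v3 : H140.V3 := by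
  intro k M _ _ _ n N u c ρ₁ r a p q τ g hn hap γ G l hl hG
  have hne : l ≠ [] := by
    rintro rfl
    simp only [List.length_nil] at hl
    omega
  have hN0 : (0 : ℝ) < (N : ℝ) + 1 := by positivity
  obtain ⟨δ, hδ⟩ : ∃ δ : ℝ, δ = 1 / ((N : ℝ) + 1) := ⟨_, rfl⟩
  have hδ0 : 0 < δ := by rw [hδ]; positivity
  have hcδ : ∀ j : ℕ, ((j * (N + 1) : ℕ) : ℝ) * δ = j := fun j => by
    rw [hδ]
    push_cast
    rw [mul_one_div, mul_div_assoc, div_self hN0.ne', mul_one]
  have hu : (u : ℝ) ≤ ((u * (N + 1) : ℕ) : ℝ) * δ := (hcδ u).ge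
  have hne' : l.map (rv (u : ℝ)) ≠ [] := by simpa using hne
  rw [VV, ← hδ, N929.stp_eq (T := u) (x₀ := q) (y' := a) (N := u * (N + 1)) τ hap hδ0 hu hne'
    (fun w hw => ?_), Nat.add_mul, fib_mesh, fib_mesh, Finset.sum_range_add]
  swap
  · obtain ⟨x, hx, rfl⟩ := List.mem_map.1 hw
    exact rv_mem_P (hG x hx).1 le_rfl
  have key0 : ∀ (i : ℕ) (L : List ((ℝ →ᵇ M) × ℝ)),
      Gr l [(i : ℝ) * δ, ((i + 1 : ℕ) : ℝ) * δ] L → ∀ x ∈ L, x.1 ∈ l ∧
        ((i : ℝ) * δ ≤ x.2 ∧ x.2 ≤ ((i + 1 : ℕ) : ℝ) * δ) := by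
    intro i L hL x hx
    refine ⟨(hL.2 x hx).1, ?_⟩
    have := (hL.2 x hx).2
    have h2 : (i : ℝ) * δ ≤ ((i + 1 : ℕ) : ℝ) * δ := by push_cast; nlinarith
    simp only [List.mem_cons, List.not_mem_nil, or_false] at this
    rcases this with h | h <;> rw [h]
    · exact ⟨le_rfl, h2⟩
    · exact ⟨h2, le_rfl⟩
  have hmem : ∀ i : ℕ, edge k δ i ∈ Sp k (fun t => t = [(i : ℝ) * δ, ((i + 1 : ℕ) : ℝ) * δ]) :=
    fun i => single_mem (P := fun t => t = [(i : ℝ) * δ, ((i + 1 : ℕ) : ℝ) * δ]) rfl 1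
  have hz : ∀ i ∈ Finset.range (c * (N + 1)),
      fib (edge k δ (u * (N + 1) + i)) (intg n τ.f g r p)
        ((l.map G).map (rv ((u + c : ℕ) : ℝ))) = 0 := by
    intro i _
    rw [List.map_map, fib_map, N929.fib]
    refine ev_zero_of (fun L hL => ?_) (sh_chg_mem (k := k) (fun _ : ℝ →ᵇ M => ()) l (hmem _))
    obtain ⟨t, rfl, hGr, hch⟩ := hL
    rw [intg_eq']
    have e1 : (L.map (Prod.map (rv ((u + c : ℕ) : ℝ) ∘ G) id)).map (evp p) =
        (L.map (Prod.map (fun _ : ℝ →ᵇ M => ()) id)).map fun x : Unit × ℝ =>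
          ((γ (u + c - x.2) : M), p) := by
      rw [List.map_map, List.map_map]
      refine List.map_congr_left fun x hx => ?_
      obtain ⟨h1, h2, h3⟩ := key0 _ L hGr x hx
      have h4 : (u : ℝ) ≤ x.2 := by
        refine le_trans ?_ h2
        rw [← hcδ u]
        exact mul_le_mul_of_nonneg_right (by push_cast; linarith [(Nat.cast_nonneg i : (0 : ℝ) ≤ i)])
          hδ0.le
      have h5 : G x.1 (u + c - x.2) = γ (u + c - x.2) := (hG _ h1).2.1 _ (by linarith)
      change ((rv ((u + c : ℕ) : ℝ) (G x.1)) x.2, p) = (γ (u + c - x.2), p)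
      rw [H754B.rv_apply, Nat.cast_add, h5]
    have hlen : n + 1 ≤ L.length := by
      have h5 := hGr.1
      simp only [List.length_cons, List.length_nil] at h5
      omega
    have h7 : τ.f (((L.map (Prod.map (rv ((u + c : ℕ) : ℝ) ∘ G) id)).map (evp p)).take (n + 1)) =
        0 := by
      refine Nrm_zero τ.nrm ?_
      rw [List.length_take, List.length_map, List.length_map, min_eq_left hlen, e1]
      have h8 := chg_take (n + 1) ((L.map (Prod.map (fun _ : ℝ →ᵇ M => ()) id)).map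
        fun x : Unit × ℝ => ((γ (u + c - x.2) : M), p))
      have h9 := chg_map (fun x : Unit × ℝ => ((γ (u + c - x.2) : M), p))
        (L.map (Prod.map (fun _ : ℝ →ᵇ M => ()) id))
      have h10 := chg_le_length [((u * (N + 1) + i : ℕ) : ℝ) * δ,
        ((u * (N + 1) + i + 1 : ℕ) : ℝ) * δ]
      simp only [List.length_cons, List.length_nil] at h10
      have h11 : chg (l.map fun _ : ℝ →ᵇ M => ()) = 0 := by
        have : ∀ j, chg (List.replicate j ()) = 0 := by
          intro j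
          induction j with
          | zero => simp
          | succ j ih =>
            rcases j with _ | j
            · simp
            · rw [List.replicate_succ, List.replicate_succ, chg_eq, ← List.replicate_succ, ih]
        rw [List.map_const', this]
      omega
    rw [h7, zero_mul]
  rw [Finset.sum_eq_zero hz, add_zero]
  refine Finset.sum_congr rfl fun i hi => ?_
  rw [List.map_map, fib_map, fib_map]
  refine fib_congr (hmem i) fun t ht L hL => ?_
  subst ht
  have hi' : ((i + 1 : ℕ) : ℝ) * δ ≤ u := by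
    rw [← hcδ u]
    exact mul_le_mul_of_nonneg_right (by exact_mod_cast Finset.mem_range.1 hi) hδ0.le
  have hw : ∀ x ∈ L, ∀ v ≤ x.2, rv ((u + c : ℕ) : ℝ) (G x.1) v = rv (u : ℝ) x.1 v := by
    intro x hx v hv
    obtain ⟨h1, h2, h3⟩ := key0 _ L hL x hx
    rw [H754B.rv_apply, H754B.rv_apply, Nat.cast_add, (hG _ h1).2.2 _ (by linarith)]
    congr 1
    ring
  rw [intg_eq', intg_eq', List.map_map, List.map_map, List.map_map, List.map_map]
  have e1 : L.map (evp p ∘ Prod.map (rv ((u + c : ℕ) : ℝ) ∘ G) id) =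
      L.map (evp p ∘ Prod.map (rv (u : ℝ)) id) :=
    List.map_congr_left fun x hx => evp_congr (hw x hx)
  have e2 : L.map (cutp r p ∘ Prod.map (rv ((u + c : ℕ) : ℝ) ∘ G) id) =
      L.map (cutp r p ∘ Prod.map (rv (u : ℝ)) id) :=
    List.map_congr_left fun x hx => cutp_congr (hw x hx)
  rw [e1, e2]

end Vale.Agent.P216.W539
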