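import Vale.Agent.P216.H539.MooreC
import Vale.Agent.P216.H550.Hp
import Vale.Agent.P216.MV337.Cpt

/-!
# P216-B, block [MV] / W6, part B: naturality of `gM`, `fM` and the homotopy `id ~ fM ∘ gM`
-/

set_option linter.all false

namespace Vale.Agent.P216.MR

open Set Filter Topology BoundedContinuousFunction
open Vale.Agent.P216.PS
open Vale.Agent.P216.AS
open Vale.Agent.P216.MV337 (FL FL_subset_PP FL_mono pg cs cs_zero cs_succ cs_nonneg cs_le cs_const
  pg_of_nonpos pg_of_ge pg_succ pg_succ_ge pg_succ_le pg_congr dist_pg_le continuousOn_pg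
  isCompact_FL)
open Vale.Agent.P216.L250 (XE LM fn ofFn HasE Cert hasE_of_cert isCompact_XE)
open Vale.Agent.P216.LS (UniqSeg seg seg_self)
open Vale.Agent.P216.H901 (tr Hp)
open Vale.Agent.P216.H550 (hp_of_cont hp_trans hp_congr hp_mono hp_of_htpy)

variable {M : Type} [MetricSpace M] {ρ ε δ s t T u : ℝ} {N : ℕ}

/-! ### Naturality of `gM` -/

theorem combo_mem {r : ℝ} (hr : r ∈ Icc (0:ℝ) 1) (hst : s ≤ t) :
    s ≤ (1 - r) * s + r * t ∧ (1 - r) * s + r * t ≤ t := by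
  constructor <;> nlinarith [hr.1, hr.2]

theorem g_nat [CompactSpace M] (hs : 0 < s) (hst : s ≤ t) (hT : t ≤ T) :
    Hp (FL M s) (∅ : Set (ℝ →ᵇ M)) (XE M T) (∅ : Set (LM M)) (gM s) (gM t) := by
  have hτ : ∀ r ∈ Icc (0:ℝ) 1, ∀ w ∈ FL M s, w ∈ FL M ((1 - r) * s + r * t) := fun r hr w hw =>
    FL_mono (combo_mem hr hst).1 hw
  have hτ0 : ∀ r ∈ Icc (0:ℝ) 1, 0 ≤ (1 - r) * s + r * t := fun r hr =>
    hs.le.trans (combo_mem hr hst).1
  have hmem : ∀ r ∈ Icc (0:ℝ) 1, ∀ w ∈ FL M s, gM ((1 - r) * s + r * t) w ∈ XE M T :=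
    fun r hr w hw => L250.XE_mono (hτ0 r hr) ((combo_mem hr hst).2.trans hT)
      (gM_mem (hτ0 r hr) (hτ r hr w hw))
  refine hp_of_cont (D := fun r w => gM ((1 - r) * s + r * t) w) (isCompact_FL hs.le) ?_
    (fun r hr w hw => hmem r hr w hw) (fun r hr w hw => hw.elim) (fun w _ => ?_) fun w _ => ?_
  · refine LS.continuousOn_of_pointwise (hs.le.trans (hst.trans hT))
      (fun q hq => hmem q.1 hq.1 q.2 hq.2) fun σ => ?_
    refine ContinuousOn.congr (f := fun q : ℝ × (ℝ →ᵇ M) =>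
      q.2 (((1 - q.1) * s + q.1 * t) * Int.fract σ)) ?_ fun q hq =>
        fn_gM (hτ0 q.1 hq.1) (hτ q.1 hq.1 q.2 hq.2) σ
    exact continuousOn_eval continuousOn_snd (by fun_prop)
  · show gM ((1 - 0) * s + 0 * t) w = gM s w
    congr 1; ring
  · show gM ((1 - 1) * s + 1 * t) w = gM t w
    congr 1; ring

/-! ### Naturality of `fM` -/

theorem pg_pad {x : ℕ → M} {Δ : ℕ → ℝ} {K L : ℕ} (hKL : K ≤ L) (hx : ∀ i, K ≤ i → x i = x K)
    (h : ∀ i < L, 0 < Δ i) (u : ℝ) : pg x Δ L u = pg x Δ K u := by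
  induction L, hKL using Nat.le_induction with
  | base => rfl
  | succ n hn ih =>
    have h' : ∀ i < n, 0 < Δ i := fun i hi => h i (hi.trans (Nat.lt_succ_self n))
    rw [pg_succ]
    split_ifs with h1
    · exact ih h'
    · rw [hx n hn, hx (n + 1) (by omega), seg_self]
      exact (pg_of_ge (fun i hi => h' i (hi.trans_le hn))
        ((cs_le h' hn).trans (not_le.1 h1).le)).symm

section

variable [CompactSpace M]

/-- homotopies of the polygonal Moore loops of loops of energy `≤ s ^ 2` -/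
theorem hp_pl (hU : UniqSeg M ρ) (hρ : 0 < ρ) (hs : 0 < s) (hδ : 0 ≤ δ) (hT : s + δ ≤ T)
    {p w : ℝ → ℕ → ℝ} (hpc : ∀ i, Continuous fun r => p r i) (hwc : ∀ i, Continuous fun r => w r i)
    (hp0 : ∀ r ∈ Icc (0:ℝ) 1, p r 0 = 0) (hpN : ∀ r ∈ Icc (0:ℝ) 1, p r N = 1)
    (hpm : ∀ r ∈ Icc (0:ℝ) 1, ∀ i < N, p r i ≤ p r (i + 1))
    (hpρ : ∀ r ∈ Icc (0:ℝ) 1, ∀ i < N, (p r (i + 1) - p r i) * s ^ 2 < ρ ^ 2)
    (hw : ∀ r ∈ Icc (0:ℝ) 1, ∀ i < N, 0 < w r i) (hws : ∀ r ∈ Icc (0:ℝ) 1, cs (w r) N ≤ δ) :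
    Hp (XE M s) (∅ : Set (LM M)) (FL M T) (∅ : Set (ℝ →ᵇ M)) (pl N (p 0) (w 0))
      (pl N (p 1) (w 1)) := by
  have hG : ∀ r ∈ Icc (0:ℝ) 1, ∀ γ ∈ XE M s, Good ρ T N (fun i => fn γ (p r i))
      (fun i => dist (fn γ (p r i)) (fn γ (p r (i + 1))) + w r i) := fun r hr γ hγ =>
    (good_pl hs hρ hγ (hp0 r hr) (hpN r hr) (hpm r hr) (hpρ r hr) (hw r hr) (hws r hr)).mono hT
  have hc : ∀ i, Continuous fun q : ℝ × LM M => fn q.2 (p q.1 i) := fun i =>
    LS.continuous_fn_apply.comp (continuous_snd.prodMk ((hpc i).comp continuous_fst))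
  refine hp_of_htpy (isHtpy_pg (N := N) (x := fun r γ i => fn γ (p r i))
    (Δ := fun r γ i => dist (fn γ (p r i)) (fn γ (p r (i + 1))) + w r i) hU (isCompact_XE hs.le)
    (by linarith) (fun i _ => (hc i).continuousOn)
    (fun i _ => (((hc i).dist (hc (i + 1))).add ((hwc i).comp continuous_fst)).continuousOn) hG)
    (fun _ _ x hx => hx.elim) (fun _ _ => rfl) fun _ _ => rfl

theorem f_nat (hU : UniqSeg M ρ) (hρ : 0 < ρ) (hε : 0 < ε) (hs : 0 < s) (hst : s ≤ t) :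
    Hp (XE M s) (∅ : Set (LM M)) (FL M (t + ε)) (∅ : Set (ℝ →ᵇ M)) (fM ρ ε s) (fM ρ ε t) := by
  set K := KN ρ s with hK
  set L := KN ρ t with hL
  have hKL : K ≤ L := KN_mono hρ hs.le hst
  have hK0 : (0:ℝ) < K := KN_cast_pos ρ s
  have hL0 : (0:ℝ) < L := KN_cast_pos ρ t
  have hKL' : (K:ℝ) ≤ L := Nat.cast_le.2 hKL
  have hsK : 1 / K * s ^ 2 < ρ ^ 2 := by
    rw [one_div, inv_mul_lt_iff₀ hK0]; exact lt_KN hρ s
  have hεL : 0 < ε / L := div_pos hε hL0
  have hεK : 0 < ε / K := div_pos hε hK0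
  have hLK : 1 / (L:ℝ) ≤ 1 / K := one_div_le_one_div_of_le hK0 hKL'
  -- change of the extra durations
  have h1 : Hp (XE M s) (∅ : Set (LM M)) (FL M (t + ε)) (∅ : Set (ℝ →ᵇ M)) (fM ρ ε s)
      (pl K (fun i => (i:ℝ) / K) (fun _ => ε / L)) := by
    have := hp_pl (M := M) (N := K) (p := fun _ i => (i:ℝ) / K)
      (w := fun r _ => (1 - r) * (ε / K) + r * (ε / L)) hU hρ hs hε.le
      (show s + ε ≤ t + ε by linarith) (fun i => by fun_prop) (fun i => by fun_prop)
      (fun r _ => by simp) (fun r _ => div_self hK0.ne')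
      (fun r _ i _ => by push_cast; gcongr; linarith)
      (fun r _ i _ => by
        have : (((i + 1 : ℕ) : ℝ) / K - (i:ℝ) / K) = 1 / K := by push_cast; ring
        rw [this]; exact hsK)
      (fun r hr i _ => by
        rcases hr.1.eq_or_lt with h | h
        · rw [← h]; simpa using hεK
        · exact add_pos_of_nonneg_of_pos (mul_nonneg (by linarith [hr.2]) hεK.le)
            (mul_pos h hεL))
      (fun r hr => by
        rw [cs_const]
        have e1 : (K:ℝ) * (ε / K) = ε := by field_simp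
        have e2 : (K:ℝ) * (ε / L) ≤ ε := by
          rw [mul_div_assoc', div_le_iff₀ hL0]; nlinarith
        nlinarith [hr.1, hr.2])
    refine hp_congr this (fun γ _ => ?_) fun γ _ => ?_
    · show pl K (fun i => (i:ℝ) / K) (fun _ => (1 - 0) * (ε / K) + 0 * (ε / L)) γ = fM ρ ε s γ
      rw [fM, ← hK]; simp
    · show pl K (fun i => (i:ℝ) / K) (fun _ => (1 - 1) * (ε / K) + 1 * (ε / L)) γ = _
      simp
  -- change of the parameters
  have h2 : Hp (XE M s) (∅ : Set (LM M)) (FL M (t + ε)) (∅ : Set (ℝ →ᵇ M))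
      (pl K (fun i => (i:ℝ) / K) (fun _ => ε / L)) (fM ρ ε t) := by
    have hm : ∀ i : ℕ, min ((i:ℝ) / K) 1 ≤ min (((i + 1 : ℕ):ℝ) / K) 1 := fun i => by
      apply min_le_min_right; push_cast; gcongr; linarith
    have hm' : ∀ i : ℕ, min (((i + 1 : ℕ):ℝ) / K) 1 - min ((i:ℝ) / K) 1 ≤ 1 / K := fun i => by
      have e1 : ((i + 1 : ℕ):ℝ) / K = (i:ℝ) / K + 1 / K := by push_cast; ring
      rw [e1]
      have e2 : 0 < 1 / (K:ℝ) := by positivity
      rcases le_total ((i:ℝ) / K) 1 with h | h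
      · rw [min_eq_left h]; linarith [min_le_left ((i:ℝ) / K + 1 / K) 1]
      · rw [min_eq_right h]; linarith [min_le_right ((i:ℝ) / K + 1 / K) 1]
    have hn : ∀ i : ℕ, ((i + 1 : ℕ):ℝ) / L - (i:ℝ) / L = 1 / L := fun i => by push_cast; ring
    have := hp_pl (M := M) (N := L) (p := fun r i => (1 - r) * min ((i:ℝ) / K) 1 + r * ((i:ℝ) / L))
      (w := fun _ _ => ε / L) hU hρ hs hε.le
      (show s + ε ≤ t + ε by linarith) (fun i => by fun_prop) (fun i => by fun_prop)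
      (fun r _ => by simp)
      (fun r _ => by
        have e1 : min ((L:ℝ) / K) 1 = 1 := min_eq_right (by rw [le_div_iff₀ hK0]; linarith)
        simp only [e1, div_self hL0.ne']; ring)
      (fun r hr i _ => by
        have e1 := hm i
        have e2 : (i:ℝ) / L ≤ ((i + 1 : ℕ):ℝ) / L := by
          have := hn i
          have h3 : 0 < 1 / (L:ℝ) := by positivity
          linarith
        exact add_le_add (mul_le_mul_of_nonneg_left e1 (by linarith [hr.2]))
          (mul_le_mul_of_nonneg_left e2 hr.1))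
      (fun r hr i _ => by
        have e1 := hm' i
        have e2 := hn i
        refine lt_of_le_of_lt (mul_le_mul_of_nonneg_right ?_ (sq_nonneg s)) hsK
        have e3 : (1 - r) * (min (((i + 1 : ℕ):ℝ) / K) 1 - min ((i:ℝ) / K) 1) ≤ (1 - r) * (1 / K) :=
          mul_le_mul_of_nonneg_left e1 (by linarith [hr.2])
        have e4 : r * (((i + 1 : ℕ):ℝ) / L - (i:ℝ) / L) ≤ r * (1 / K) := by
          rw [e2]; exact mul_le_mul_of_nonneg_left hLK hr.1
        linarith)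
      (fun r hr i _ => hεL)
      (fun r hr => by
        rw [cs_const]
        exact (mul_div_cancel₀ ε hL0.ne').le)
    refine hp_congr this (fun γ hγ => ?_) fun γ _ => ?_
    · have e1 : ∀ i : ℕ, i ≤ K → (1 - 0) * min ((i:ℝ) / K) 1 + 0 * ((i:ℝ) / L) = (i:ℝ) / K := by
        intro i hi
        have : (i:ℝ) / K ≤ 1 := by
          rw [div_le_one hK0]; exact_mod_cast hi
        rw [min_eq_left this]; ring
      have e2 : ∀ i : ℕ, K ≤ i → (1 - 0) * min ((i:ℝ) / K) 1 + 0 * ((i:ℝ) / L) = 1 := by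
        intro i hi
        have : 1 ≤ (i:ℝ) / K := by
          rw [le_div_iff₀ hK0, one_mul]; exact_mod_cast hi
        rw [min_eq_right this]; ring
      show mo (pg _ _ L) = mo (pg _ _ K)
      congr 1
      funext u
      rw [pg_pad hKL]
      · refine pg_congr (fun i hi => ?_) fun i hi => ?_
        · show fn γ ((1 - 0) * min ((i:ℝ) / K) 1 + 0 * ((i:ℝ) / L)) = fn γ ((i:ℝ) / K)
          rw [e1 i hi]
        · show dist (fn γ ((1 - 0) * min ((i:ℝ) / K) 1 + 0 * ((i:ℝ) / L)))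
            (fn γ ((1 - 0) * min (((i + 1 : ℕ):ℝ) / K) 1 + 0 * (((i + 1 : ℕ):ℝ) / L))) + ε / L =
            dist (fn γ ((i:ℝ) / K)) (fn γ (((i + 1 : ℕ):ℝ) / K)) + ε / L
          rw [e1 i hi.le, e1 (i + 1) hi]
      · intro i hi
        show fn γ ((1 - 0) * min ((i:ℝ) / K) 1 + 0 * ((i:ℝ) / L)) =
          fn γ ((1 - 0) * min ((K:ℝ) / K) 1 + 0 * ((K:ℝ) / L))
        rw [e2 i hi, e2 K le_rfl]
      · intro i hi
        exact add_pos_of_nonneg_of_pos dist_nonneg hεL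
    · show pl L _ (fun _ => ε / L) γ = fM ρ ε t γ
      rw [fM, ← hL]
      congr 1
      funext i
      ring
  exact hp_trans h1 h2

/-! ### The second half of `id ~ fM ∘ gM`: change of the durations -/

/-- the polygonal Moore loop inscribed in `w`, with equal durations -/
noncomputable def plC (K : ℕ) (t : ℝ) (w : ℝ →ᵇ M) : ℝ →ᵇ M :=
  mo (pg (fun i => w (t * ((i:ℝ) / K))) (fun _ => t / K) K)

theorem dist_node_le (ht : 0 ≤ t) {K : ℕ} (hK : 0 < K) {w : ℝ →ᵇ M} (hw : w ∈ FL M t) (i : ℕ) :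
    dist (w (t * ((i:ℝ) / K))) (w (t * (((i + 1 : ℕ):ℝ) / K))) ≤ t / K := by
  refine (hw.1 _ _).trans_eq ?_
  have : t * ((i:ℝ) / K) - t * (((i + 1 : ℕ):ℝ) / K) = -(t / K) := by push_cast; ring
  rw [this, abs_neg, abs_of_nonneg (by positivity)]

theorem hp_fg2 (hU : UniqSeg M ρ) (hρ : 0 < ρ) (hε : 0 < ε) (ht : 0 < t) (hT : t + ε ≤ T) :
    Hp (FL M t) (∅ : Set (ℝ →ᵇ M)) (FL M T) (∅ : Set (ℝ →ᵇ M)) (plC (KN ρ (t + ε)) t)
      (fM ρ ε (t + ε) ∘ gM t) := by
  set K := KN ρ (t + ε) with hK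
  have hKn : 0 < K := KN_pos ρ (t + ε)
  have hK0 : (0:ℝ) < K := KN_cast_pos ρ (t + ε)
  have htK : t / K < ρ := div_KN_lt hρ ht.le (by linarith)
  have htK0 : 0 < t / K := div_pos ht hK0
  have hεK : 0 < ε / K := div_pos hε hK0
  have hc : ∀ i : ℕ, Continuous fun q : ℝ × (ℝ →ᵇ M) => q.2 (t * ((i:ℝ) / K)) := fun i =>
    (continuous_eval_const _).comp continuous_snd
  have hG : ∀ r ∈ Icc (0:ℝ) 1, ∀ w ∈ FL M t, Good ρ T K (fun i => w (t * ((i:ℝ) / K)))
      (fun i => (1 - r) * (t / K) + r * (dist (w (t * ((i:ℝ) / K)))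
        (w (t * (((i + 1 : ℕ):ℝ) / K))) + ε / K)) := by
    intro r hr w hw
    have hd := dist_node_le ht.le hKn hw
    have hr' : 0 ≤ 1 - r := by linarith [hr.2]
    refine ⟨fun i _ => ?_, fun i _ => (hd i).trans_lt htK, fun i _ => ?_, ?_, ?_⟩
    · have e1 : 0 < dist (w (t * ((i:ℝ) / K))) (w (t * (((i + 1 : ℕ):ℝ) / K))) + ε / K :=
        add_pos_of_nonneg_of_pos dist_nonneg hεK
      rcases hr.1.eq_or_lt with h | h
      · rw [← h]; simpa using htK0
      · exact add_pos_of_nonneg_of_pos (mul_nonneg hr' htK0.le) (mul_pos h e1)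
    · have e1 := hd i
      have e2 := mul_le_mul_of_nonneg_left e1 hr'
      have e3 := mul_nonneg hr.1 hεK.le
      linarith
    · have e1 : cs (fun i => (1 - r) * (t / K) + r * (dist (w (t * ((i:ℝ) / K)))
          (w (t * (((i + 1 : ℕ):ℝ) / K))) + ε / K)) K ≤ ∑ i ∈ Finset.range K, (t / K + r * (ε / K)) := by
        refine Finset.sum_le_sum fun i _ => ?_
        have := mul_le_mul_of_nonneg_left (hd i) hr.1
        linarith
      rw [Finset.sum_const, Finset.card_range, nsmul_eq_mul] at e1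
      have e2 : (K:ℝ) * (t / K + r * (ε / K)) = t + r * ε := by field_simp
      rw [e2] at e1
      have e3 := mul_le_mul_of_nonneg_right hr.2 hε.le
      linarith
    · show w (t * ((K:ℝ) / K)) = w (t * (((0:ℕ):ℝ) / K))
      rw [div_self hK0.ne', mul_one, Nat.cast_zero, zero_div, mul_zero, hw.2.2 t le_rfl]
  refine hp_of_htpy (isHtpy_pg (N := K) (x := fun _ w i => w (t * ((i:ℝ) / K)))
    (Δ := fun r w i => (1 - r) * (t / K) + r * (dist (w (t * ((i:ℝ) / K)))
        (w (t * (((i + 1 : ℕ):ℝ) / K))) + ε / K)) hU (isCompact_FL ht.le) (by linarith)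
    (fun i _ => (hc i).continuousOn) (fun i _ => ?_) hG) (fun _ _ x hx => hx.elim)
    (fun w _ => ?_) fun w hw => ?_
  · exact (((continuous_const.sub continuous_fst).mul continuous_const).add
      (continuous_fst.mul (((hc i).dist (hc (i + 1))).add continuous_const))).continuousOn
  · show mo (pg _ _ K) = mo (pg _ _ K)
    congr 1
    funext u
    refine pg_congr (fun i _ => rfl) fun i _ => ?_
    ring
  · show mo (pg _ _ K) = fM ρ ε (t + ε) (gM t w)
    rw [fM, pl, ← hK]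
    congr 1
    funext u
    have e1 : ∀ i ≤ K, fn (gM t w) ((i:ℝ) / K) = w (t * ((i:ℝ) / K)) := fun i hi =>
      fn_gM_Icc ht.le hw ⟨by positivity, by rw [div_le_one hK0]; exact_mod_cast hi⟩
    refine pg_congr (fun i hi => (e1 i hi).symm) fun i hi => ?_
    rw [e1 i hi.le, e1 (i + 1) hi]
    ring

end

end Vale.Agent.P216.MR
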