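import Vale.Agent.P216.H539.MooreB

/-!
# P216-B, block [MV] / W6: the Milnor homotopy on Moore loops, and `StMoore`
-/

set_option linter.all false

namespace Vale.Agent.P216.MR

open Set Filter Topology BoundedContinuousFunction
open Vale.Agent.P216.PS
open Vale.Agent.P216.AS
open Vale.Agent.P216.MV337 (FL FL_subset_PP FL_mono pg cs cs_zero cs_succ cs_nonneg cs_le cs_const
  pg_of_nonpos pg_of_ge pg_succ pg_succ_ge pg_succ_le pg_congr dist_pg_le continuousOn_pg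
  isCompact_FL)
open Vale.Agent.P216.L250 (XE LM fn ofFn HasE Cert hasE_of_cert isCompact_XE)
open Vale.Agent.P216.LS (UniqSeg seg seg_self seg_one seg_zero Mi Mi_apply Mi_int MiL fn_MiL MiL_mem
  MiL_zero continuousOn_MiL dist_seg_seg_le)
open Vale.Agent.P216.H901 (tr Hp)
open Vale.Agent.P216.H550 (hp_of_cont hp_trans hp_congr hp_mono hp_of_htpy)

variable {M : Type} [MetricSpace M] {ρ ε δ s t T u : ℝ} {N : ℕ}

/-! ### Gluing of Lipschitz pieces -/

theorem lip_of_pieces {F : ℝ → M} {L : ℝ} {K : ℕ} (hK : 0 < K)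
    (h : ∀ (n : ℤ) (a b : ℝ), 0 ≤ a → a ≤ b → b ≤ 1 →
      dist (F ((n + a) / K)) (F ((n + b) / K)) ≤ L * ((b - a) / K)) (u v : ℝ) :
    dist (F u) (F v) ≤ L * |u - v| := by
  have hK0 : (0:ℝ) < K := Nat.cast_pos.2 hK
  have key : ∀ (m : ℕ) (n : ℤ) (u v : ℝ), (n:ℝ) / K ≤ u → u ≤ v → v ≤ (n + m) / K →
      dist (F u) (F v) ≤ L * (v - u) := by
    intro m
    induction m with
    | zero =>
      intro n u v h1 h2 h3
      have : u = v := by
        apply le_antisymm h2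
        rw [Nat.cast_zero, add_zero] at h3
        exact h3.trans h1
      rw [this]; simp
    | succ m ih =>
      intro n u v h1 h2 h3
      have piece : ∀ u v : ℝ, ((n:ℝ) + m) / K ≤ u → u ≤ v → v ≤ (n + m + 1) / K →
          dist (F u) (F v) ≤ L * (v - u) := by
        intro u v h1 h2 h3
        rw [div_le_iff₀ hK0] at h1
        rw [le_div_iff₀ hK0] at h3
        have h2' : u * K ≤ v * K := mul_le_mul_of_nonneg_right h2 hK0.le
        have := h (n + m) (u * K - (n + m)) (v * K - (n + m)) (by linarith) (by linarith)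
          (by linarith)
        push_cast at this
        rw [add_sub_cancel, add_sub_cancel, mul_div_cancel_right₀ _ hK0.ne',
          mul_div_cancel_right₀ _ hK0.ne'] at this
        refine this.trans_eq ?_
        field_simp
        ring
      rcases le_total v ((n + m) / K) with h4 | h4
      · exact ih n u v h1 h2 h4
      have h3' : v ≤ ((n:ℝ) + m + 1) / K := by
        refine h3.trans_eq ?_
        push_cast; ring
      rcases le_total ((n + m : ℝ) / K) u with h5 | h5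
      · exact piece u v h5 h2 h3'
      · have e1 := ih n u _ h1 h5 le_rfl
        have e2 := piece _ v le_rfl h4 h3'
        linarith [dist_triangle (F u) (F ((n + m) / K)) (F v)]
  wlog huv : u ≤ v generalizing u v
  · rw [dist_comm, abs_sub_comm]
    exact this v u (le_of_not_ge huv)
  obtain ⟨m, hm⟩ := exists_nat_ge (v * K - ⌊u * K⌋)
  rw [abs_of_nonpos (sub_nonpos.2 huv), neg_sub]
  refine key m ⌊u * K⌋ u v ?_ huv ?_
  · rw [div_le_iff₀ hK0]; exact Int.floor_le _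
  · rw [le_div_iff₀ hK0]; linarith

theorem lip_gM (ht : 0 ≤ t) {w : ℝ →ᵇ M} (hw : w ∈ FL M t) (u v : ℝ) :
    dist (fn (gM t w) u) (fn (gM t w) v) ≤ t * |u - v| := by
  refine lip_of_pieces (K := 1) one_pos (fun n a b ha hab hb => ?_) u v
  have e : ∀ a : ℝ, fn (gM t w) ((n + a) / (1:ℕ)) = fn (gM t w) a := by
    intro a
    have := (L250.fn_periodic (gM t w)).int_mul n a
    rw [Nat.cast_one, div_one, add_comm]
    simpa using this
  rw [e, e, fn_gM_Icc ht hw ⟨ha, hab.trans hb⟩, fn_gM_Icc ht hw ⟨ha.trans hab, hb⟩]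
  refine (hw.1 _ _).trans_eq ?_
  rw [← mul_sub, abs_mul, abs_of_nonneg ht, abs_sub_comm, abs_of_nonneg (by linarith)]
  push_cast; ring

/-- the Milnor homotopy keeps the Lipschitz constant -/
theorem lip_Mi {K : ℕ} [NeZero K] (hU : UniqSeg M ρ) {L : ℝ} (hL : 0 ≤ L) (hLK : L / K < ρ)
    {g : ℝ → M} (hg : ∀ u v, dist (g u) (g v) ≤ L * |u - v|) {τ : ℝ} (hτ : τ ∈ Icc (0:ℝ) 1)
    (u v : ℝ) : dist (Mi K τ g u) (Mi K τ g v) ≤ L * |u - v| := by
  have hK0 : (0:ℝ) < K := Nat.cast_pos.2 (NeZero.pos K)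
  refine lip_of_pieces (NeZero.pos K) (fun n a b ha hab hb => ?_) u v
  have hd : ∀ a b : ℝ, a ≤ b → dist (g ((n + a) / K)) (g ((n + b) / K)) ≤ L * ((b - a) / K) := by
    intro a b hab
    refine (hg _ _).trans_eq ?_
    have : ((n:ℝ) + a) / K - (n + b) / K = -((b - a) / K) := by ring
    rw [this, abs_neg, abs_of_nonneg (div_nonneg (by linarith) hK0.le)]
  -- after `τ`
  have hge : ∀ a : ℝ, 0 ≤ a → a ≤ 1 → τ ≤ a → Mi K τ g ((n + a) / K) = g ((n + a) / K) := by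
    intro a h0 h1 h2
    rw [Mi_apply g hτ n ⟨h0, h1⟩, max_eq_left h2]
    rcases h0.eq_or_lt with h | h
    · rw [← h, zero_div, seg_zero, add_zero]
    · rw [div_self h.ne', seg_one]
  have hA : ∀ a b : ℝ, 0 ≤ a → a ≤ b → b ≤ τ →
      dist (Mi K τ g ((n + a) / K)) (Mi K τ g ((n + b) / K)) ≤ L * ((b - a) / K) := by
    intro a b h0 h1 h2
    rcases hτ.1.eq_or_lt with h | h
    · have hb0 : b = 0 := by linarith
      have ha0 : a = 0 := by linarith
      rw [ha0, hb0]; simp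
    rw [Mi_apply g hτ n ⟨h0, (h1.trans h2).trans hτ.2⟩, Mi_apply g hτ n ⟨h0.trans h1, h2.trans hτ.2⟩,
      max_eq_right (h1.trans h2), max_eq_right h2]
    have e1 := hd 0 τ h.le
    rw [add_zero, sub_zero] at e1
    have e2 : dist (g (n / K)) (g ((n + τ) / K)) < ρ := by
      refine lt_of_le_of_lt (e1.trans ?_) hLK
      rw [mul_div_assoc']
      exact div_le_div_of_nonneg_right (mul_le_of_le_one_right hL hτ.2) hK0.le
    rw [dist_seg_seg_le hU e2 (div_nonneg h0 h.le) (div_le_div_of_nonneg_right h1 h.le)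
      ((div_le_one h).2 h2)]
    calc (b / τ - a / τ) * dist (g (n / K)) (g ((n + τ) / K))
        ≤ (b / τ - a / τ) * (L * (τ / K)) := mul_le_mul_of_nonneg_left e1 (by
          rw [← sub_div]; exact div_nonneg (by linarith) h.le)
      _ = L * ((b - a) / K) := by field_simp
  have hB : ∀ a b : ℝ, τ ≤ a → 0 ≤ a → a ≤ b → b ≤ 1 →
      dist (Mi K τ g ((n + a) / K)) (Mi K τ g ((n + b) / K)) ≤ L * ((b - a) / K) := by
    intro a b h0 h1 h2 h3
    rw [hge a h1 (h2.trans h3) h0, hge b (h1.trans h2) h3 (h0.trans h2)]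
    exact hd a b h2
  rcases le_total b τ with h1 | h1
  · exact hA a b ha hab h1
  rcases le_total τ a with h2 | h2
  · exact hB a b h2 ha hab hb
  · have e1 := hA a τ ha h2 le_rfl
    have e2 := hB τ b le_rfl hτ.1 h1 hb
    have e3 := dist_triangle (Mi K τ g ((n + a) / K)) (Mi K τ g ((n + τ) / K)) (Mi K τ g ((n + b) / K))
    have e4 : L * ((b - a) / K) = L * ((τ - a) / K) + L * ((b - τ) / K) := by ring
    linarith

/-! ### From loops to Moore loops -/

/-- clamped time -/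
noncomputable def cl (t u : ℝ) : ℝ := max 0 (min u t) / t

theorem cl_mem (ht : 0 < t) (u : ℝ) : cl t u ∈ Icc (0:ℝ) 1 :=
  ⟨div_nonneg (le_max_left _ _) ht.le, (div_le_one ht).2 (max_le ht.le (min_le_right _ _))⟩

theorem cl_nonpos (hu : u ≤ 0) (ht : 0 < t) : cl t u = 0 := by
  rw [cl, min_eq_left (hu.trans ht.le), max_eq_left hu, zero_div]

theorem cl_ge (ht : 0 < t) (hu : t ≤ u) : cl t u = 1 := by
  rw [cl, min_eq_right hu, max_eq_right ht.le, div_self ht.ne']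

theorem cl_mid (h0 : 0 ≤ u) (h1 : u ≤ t) : cl t u = u / t := by
  rw [cl, min_eq_left h1, max_eq_right h0]

theorem cl_lip (ht : 0 < t) (u v : ℝ) : t * |cl t u - cl t v| ≤ |u - v| := by
  have e1 : cl t u - cl t v = (max 0 (min u t) - max 0 (min v t)) / t := by
    rw [cl, cl]; ring
  rw [e1, abs_div, abs_of_pos ht, mul_div_cancel₀ _ ht.ne']
  have h2 : |max 0 (min u t) - max 0 (min v t)| ≤ |min u t - min v t| := by
    have := abs_max_sub_max_le_abs (min u t) (min v t) 0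
    rwa [max_comm (min u t), max_comm (min v t)] at this
  refine h2.trans ?_
  have := abs_min_sub_min_le_max u t v t
  simpa using this

theorem lip_cl (ht : 0 < t) {F : ℝ → M} (hF : ∀ u v, dist (F u) (F v) ≤ t * |u - v|) :
    Lip fun u => F (cl t u) := fun u v => (hF _ _).trans (cl_lip ht u v)

/-! ### Values of a polygon -/

theorem pg_at {x : ℕ → M} {Δ : ℕ → ℝ} (h : ∀ i < N, 0 < Δ i) {n : ℕ} (hn : n < N) {a : ℝ}
    (ha : a ∈ Icc (0:ℝ) 1) : pg x Δ N (cs Δ n + a * Δ n) = seg (x n) (x (n + 1)) a := by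
  have hn' : n + 1 ≤ N := hn
  clear hn
  induction N, hn' using Nat.le_induction with
  | base =>
    have h0 := h n (Nat.lt_succ_self n)
    rw [pg_succ_ge (fun i hi => h i (hi.trans (Nat.lt_succ_self n)))
      (le_add_of_nonneg_right (mul_nonneg ha.1 h0.le)), add_sub_cancel_left,
      mul_div_cancel_right₀ _ h0.ne', min_eq_right ha.2]
  | succ m hm ih =>
    have h' : ∀ i < m, 0 < Δ i := fun i hi => h i (hi.trans (Nat.lt_succ_self m))
    rw [pg_succ_le, ih h']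
    have h0 := h' n hm
    have e1 := cs_le h' hm
    rw [cs_succ] at e1
    nlinarith [ha.2]

/-! ### The Milnor homotopy on Moore loops -/

section

variable [CompactSpace M]

theorem continuousOn_gM (ht : 0 < t) : ContinuousOn (gM t : (ℝ →ᵇ M) → LM M) (FL M t) := by
  refine LS.continuousOn_of_pointwise ht.le (fun w hw => gM_mem ht.le hw) fun σ => ?_
  refine ContinuousOn.congr (f := fun w : ℝ →ᵇ M => w (t * Int.fract σ)) ?_ fun w hw =>
    fn_gM ht.le hw σ
  exact (continuous_eval_const _).continuousOn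

/-- a loop as a Moore loop of time `t` -/
noncomputable def toM (t : ℝ) (γ : LM M) : ℝ →ᵇ M := mo fun u => fn γ (cl t u)

theorem toM_apply (ht : 0 < t) {γ : LM M} (hγ : ∀ u v, dist (fn γ u) (fn γ v) ≤ t * |u - v|)
    (u : ℝ) : toM t γ u = fn γ (cl t u) := (lip_cl ht hγ).mo_apply u

theorem toM_mem (ht : 0 < t) {γ : LM M} (hγ : ∀ u v, dist (fn γ u) (fn γ v) ≤ t * |u - v|) :
    toM t γ ∈ FL M t := by
  refine MV337.P_subset_FL (a := fn γ 0) (mo_mem (lip_cl ht hγ) (fun u hu => ?_) fun u hu => ?_)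
  · rw [cl_nonpos hu ht]
  · rw [cl_ge ht hu]
    have := L250.fn_periodic γ 0
    rwa [zero_add] at this

theorem toM_gM (ht : 0 < t) {w : ℝ →ᵇ M} (hw : w ∈ FL M t) : toM t (gM t w) = w := by
  ext u
  rw [toM_apply ht (lip_gM ht.le hw), fn_gM_Icc ht.le hw (cl_mem ht u)]
  rcases le_total u 0 with h0 | h0
  · rw [cl_nonpos h0 ht, mul_zero, hw.2.1 u h0]
  rcases le_total t u with h1 | h1
  · rw [cl_ge ht h1, mul_one, hw.2.2 u h1, hw.2.2 t le_rfl]
  · rw [cl_mid h0 h1, mul_div_cancel₀ _ ht.ne']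

theorem toM_MiL_one {K : ℕ} [NeZero K] (hU : UniqSeg M ρ) (hρ : 0 < ρ) (ht : 0 < t)
    (htK : t ^ 2 < K * ρ ^ 2) (htK' : t / K < ρ) {w : ℝ →ᵇ M} (hw : w ∈ FL M t) :
    toM t (MiL K 1 (gM t w)) = plC K t w := by
  have hK0 : (0:ℝ) < K := Nat.cast_pos.2 (NeZero.pos K)
  have hg := gM_mem ht.le hw
  have h1 : (1:ℝ) ∈ Icc (0:ℝ) 1 := ⟨zero_le_one, le_rfl⟩
  have hfn : ∀ σ, fn (MiL K 1 (gM t w)) σ = Mi K 1 (fn (gM t w)) σ := fun σ =>
    fn_MiL hU hρ htK hg h1 σ
  have hpos : ∀ i < K, 0 < (fun _ : ℕ => t / (K:ℝ)) i := fun i _ => div_pos ht hK0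
  unfold toM plC
  congr 1
  funext u
  rw [hfn]
  have i0 : Mi K 1 (fn (gM t w)) 0 = w 0 := by
    have := Mi_int (K := K) (fn (gM t w)) h1 0
    rw [Int.cast_zero, zero_div] at this
    rw [this, fn_gM_Icc ht.le hw ⟨le_rfl, zero_le_one⟩, mul_zero]
  have i1 : Mi K 1 (fn (gM t w)) 1 = w t := by
    have := Mi_int (K := K) (fn (gM t w)) h1 K
    rw [Int.cast_natCast, div_self hK0.ne'] at this
    rw [this, fn_gM_Icc ht.le hw ⟨zero_le_one, le_rfl⟩, mul_one]
  rcases le_total u 0 with h0 | h0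
  · rw [cl_nonpos h0 ht, i0, pg_of_nonpos hpos h0]
    simp
  rcases le_or_gt t u with h2 | h2
  · rw [cl_ge ht h2, i1, pg_of_ge hpos (by rw [cs_const, mul_div_cancel₀ _ hK0.ne']; exact h2)]
    rw [div_self hK0.ne', mul_one]
  -- the interior
  have hr0 : 0 ≤ u / t * K := by positivity
  have hr1 : u / t * K < K := mul_lt_of_lt_one_left hK0 ((div_lt_one ht).2 h2)
  obtain ⟨n, a, ha, hn, hna⟩ : ∃ (n : ℕ) (a : ℝ), a ∈ Icc (0:ℝ) 1 ∧ n < K ∧ u / t * K = n + a := by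
    refine ⟨⌊u / t * K⌋₊, u / t * K - ⌊u / t * K⌋₊, ⟨?_, ?_⟩, ?_, by ring⟩
    · exact sub_nonneg.2 (Nat.floor_le hr0)
    · linarith [Nat.lt_floor_add_one (u / t * K)]
    · exact (Nat.floor_lt hr0).2 hr1
  have e1 : cl t u = ((n:ℤ) + a) / K := by
    rw [cl_mid h0 h2.le, eq_div_iff hK0.ne', hna]; push_cast; ring
  have e2 : u = cs (fun _ : ℕ => t / (K:ℝ)) n + a * (t / K) := by
    rw [cs_const]
    have : u = (u / t * K) * (t / K) := by field_simp
    rw [this, hna]; ring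
  rw [e1, Mi_apply _ h1 n ha, max_eq_right ha.2, div_one]
  conv_rhs => rw [e2]
  rw [pg_at hpos hn ha]
  have hnK : (n:ℝ) + 1 ≤ K := by exact_mod_cast hn
  have e3 : fn (gM t w) (((n:ℤ):ℝ) / K) = w (t * ((n:ℝ) / K)) := by
    rw [Int.cast_natCast]
    exact fn_gM_Icc ht.le hw ⟨by positivity, by rw [div_le_one hK0]; linarith⟩
  have e4 : fn (gM t w) ((((n:ℤ):ℝ) + 1) / K) = w (t * (((n + 1 : ℕ):ℝ) / K)) := by
    rw [Int.cast_natCast]
    push_cast
    exact fn_gM_Icc ht.le hw ⟨by positivity, by rw [div_le_one hK0]; exact hnK⟩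
  rw [e3, e4]

/-- **[MIL]** -/
theorem hp_mil {K : ℕ} (hK : 0 < K) (hU : UniqSeg M ρ) (hρ : 0 < ρ) (ht : 0 < t)
    (htK : t ^ 2 < K * ρ ^ 2) (htK' : t / K < ρ) (hT : t ≤ T) :
    Hp (FL M t) (∅ : Set (ℝ →ᵇ M)) (FL M T) (∅ : Set (ℝ →ᵇ M)) id (plC K t) := by
  haveI : NeZero K := ⟨hK.ne'⟩
  have hlip : ∀ τ ∈ Icc (0:ℝ) 1, ∀ w ∈ FL M t, ∀ u v,
      dist (fn (MiL K τ (gM t w)) u) (fn (MiL K τ (gM t w)) v) ≤ t * |u - v| := by
    intro τ hτ w hw u v
    rw [fn_MiL hU hρ htK (gM_mem ht.le hw) hτ, fn_MiL hU hρ htK (gM_mem ht.le hw) hτ]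
    exact lip_Mi hU ht.le htK' (lip_gM ht.le hw) hτ u v
  have hmem : ∀ τ ∈ Icc (0:ℝ) 1, ∀ w ∈ FL M t, toM t (MiL K τ (gM t w)) ∈ FL M T :=
    fun τ hτ w hw => FL_mono hT (toM_mem ht (hlip τ hτ w hw))
  refine hp_of_cont (D := fun τ w => toM t (MiL K τ (gM t w))) (isCompact_FL ht.le) ?_
    (fun τ hτ w hw => hmem τ hτ w hw) (fun _ _ _ hw => hw.elim) (fun w hw => ?_) fun w hw => ?_
  · refine continuousOn_of_eval (ht.le.trans hT) (fun q hq => FL_subset_PP (hmem q.1 hq.1 q.2 hq.2))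
      fun u => ?_
    refine ContinuousOn.congr (f := fun q : ℝ × (ℝ →ᵇ M) => fn (MiL K q.1 (gM t q.2)) (cl t u)) ?_
      fun q hq => toM_apply ht (hlip q.1 hq.1 q.2 hq.2) u
    have h1 : ContinuousOn (fun q : ℝ × (ℝ →ᵇ M) => (q.1, gM t q.2)) (Icc (0:ℝ) 1 ×ˢ FL M t) :=
      continuousOn_fst.prodMk ((continuousOn_gM ht).comp continuousOn_snd fun q hq => hq.2)
    have h2 := (continuousOn_MiL (M := M) hU hρ ht.le htK).comp h1
      fun q hq => ⟨hq.1, gM_mem ht.le hq.2⟩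
    exact (LS.continuous_fn_left (cl t u)).comp_continuousOn h2
  · show toM t (MiL K 0 (gM t w)) = w
    rw [MiL_zero, toM_gM ht hw]
  · exact toM_MiL_one hU hρ ht htK htK' hw

theorem fg (hU : UniqSeg M ρ) (hρ : 0 < ρ) (hε : 0 < ε) (ht : 0 < t) :
    Hp (FL M t) (∅ : Set (ℝ →ᵇ M)) (FL M (t + ε + ε)) (∅ : Set (ℝ →ᵇ M)) id
      (fM ρ ε (t + ε) ∘ gM t) :=
  hp_trans (hp_mil (KN_pos ρ (t + ε)) hU hρ ht (sq_lt_KN hρ ht.le (by linarith))
    (div_KN_lt hρ ht.le (by linarith)) (by linarith)) (hp_fg2 hU hρ hε ht (by linarith))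

end

end Vale.Agent.P216.MR
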