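import Vale.Agent.P216.H754B.Fl
import Vale.Agent.P216.H962.Alg

/-!
# The reversal on the degree `0` class, and `OmegaSign` (P216, block B43, parts [T0], [OS])
-/

set_option linter.all false

namespace Vale.Agent.P216.OmSign

open Set BoundedContinuousFunction
open Vale.Agent.P216.AS Vale.Agent.P216.H901 Vale.Agent.P216.PS
open Vale.Agent.P216.H754B (rv rv_apply rv_mem_P map_rv htpy_rv htpy_rv_zero htpy_rv_one opP PMOp
  mono_P revP_eq omF)
open Vale.Agent.P216.B64 (HU hone hres hpull RevP OmegaOut OmegaSign UMap)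

variable {M : Type} [MetricSpace M] {m : ℕ} {x₀ : M} {k : Type} [Field k]

/-! ### The class of the constant `1` -/

theorem hone_ne {E : Type} [PseudoMetricSpace E] {X : Set E} (h : X.Nonempty) :
    hone k X ≠ 0 := by
  intro h0
  obtain ⟨x, hx⟩ := h
  have h1 := H.mk_eq_zero.1 h0
  rw [mem_Bc_zero] at h1
  obtain ⟨-, ε, hε, h2⟩ := h1
  have := h2 (fun _ => x) ⟨fun _ => hx, fun _ _ => by rw [dist_self]; exact hε⟩
  exact one_ne_zero this

theorem res_hone {E : Type} [PseudoMetricSpace E] {X Y : Set E} (h : Y ⊆ X) :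
    hres k h 0 (hone k X) = hone k Y := rfl

theorem pull_hone {E E' : Type} [PseudoMetricSpace E] [PseudoMetricSpace E'] {X : Set E}
    {X' : Set E'} {f : E → E'} (h : UMap X X' f) : hpull k h 0 (hone k X') = hone k X := rfl

theorem P_nonempty (x₀ : M) (t : ℝ) : (P x₀ x₀ t).Nonempty := ⟨cst x₀, cst_mem x₀ t⟩

section T0

variable {B C B0 : ℝ} {hM : Mono fun t => P x₀ x₀ t}

/-- the constant class as a family -/
noncomputable def oneF (k : Type) [Field k] (hM : Mono fun t => P x₀ x₀ t) :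
    (PMa k (fun t => P x₀ x₀ t) hM 0).Fam where
  z t _ := hone k (P x₀ x₀ t)
  comp s t hs h := rfl

/-- every map fixes the family of degree `0` -/
theorem om0_fixed (b : Based m (fun q => PMa k (fun t => P x₀ x₀ t) hM q) B C B0) (hB : 0 ≤ B)
    (O : PMOp (PMa k (fun t => P x₀ x₀ t) hM (m * 0)))
    (hO : ∀ t ht, O.r t ht (hone k (P x₀ x₀ t)) = hone k (P x₀ x₀ t)) (t : ℝ) (ht : 0 < t) :
    O.r t ht ((b.om 0).z t ht) = (b.om 0).z t ht := by
  obtain ⟨a, ha⟩ := (b.line 0).fam hB (oneF k hM)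
  have ha' : ∀ t ht, hone k (P x₀ x₀ t) = a • (b.om 0).z t ht := ha
  have hne : a ≠ 0 := by
    rintro rfl
    have := ha' t ht
    rw [zero_smul] at this
    exact hone_ne (P_nonempty x₀ t) this
  have h1 := hO t ht
  rw [ha' t ht, map_smul] at h1
  have h2 := congrArg (fun y => a⁻¹ • y) h1
  simp only [smul_smul, inv_mul_cancel₀ hne, one_smul] at h2
  exact h2

/-- **[T0]** the reversal fixes the family of degree `0`. -/
theorem theta_om0 (b : Based m (fun q => PMa k (fun t => P x₀ x₀ t) hM q) B C B0) (hB : 0 ≤ B)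
    (t : ℝ) (ht : 0 < t) : ((opP x₀).opa k hM (m * 0)).r t ht ((b.om 0).z t ht) =
      (b.om 0).z t ht :=
  om0_fixed b hB _ (fun _ _ => rfl) t ht

/-- the sign rule holds for all families of degree `m * j` -/
theorem sign_fam (b : Based m (fun q => PMa k (fun t => P x₀ x₀ t) hM q) B C B0) (hB : 0 ≤ B)
    {j : ℕ} {e : k} (h : ∀ t ht, ((opP x₀).opa k hM (m * j)).r t ht ((b.om j).z t ht) =
      e • (b.om j).z t ht) {q : ℕ} (hq : q = m * j)
    (z : (PMa k (fun t => P x₀ x₀ t) hM q).Fam) (t : ℝ) (ht : 0 < t) :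
    ((opP x₀).opa k hM q).r t ht (z.z t ht) = e • z.z t ht := by
  subst hq
  obtain ⟨a, ha⟩ := (b.line j).fam hB z
  rw [ha t ht, map_smul, h t ht, smul_smul, smul_smul, mul_comm a e]

end T0

/-! ### `OmegaSign` -/

theorem th_nat {s t : ℝ} (h : s ≤ t) (q : ℕ)
    (h1 : IsMap (tr (ℝ →ᵇ M)) (tr (ℝ →ᵇ M)) (P x₀ x₀ s) (P x₀ x₀ s) (rv s))
    (h2 : IsMap (tr (ℝ →ᵇ M)) (tr (ℝ →ᵇ M)) (P x₀ x₀ t) (P x₀ x₀ t) (rv t))
    (x : Ha (tr (ℝ →ᵇ M)) (on k) (P x₀ x₀ t) q) :
    pull (on k) h1 q (res (P_mono h) q x) = res (P_mono h) q (pull (on k) h2 q x) := by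
  have hm : ∀ σ, s ≤ σ → σ ≤ t → MapsTo (rv σ) (P x₀ x₀ s) (P x₀ x₀ t) := fun σ h1 h2 w hw =>
    P_mono h2 (rv_mem_P hw h1)
  have HH := htpy_rv (A := P x₀ x₀ s) (B := P x₀ x₀ t) h (fun w hw => hw.1) hm
  have e1 : res (P_mono h) q (pull (on k) h2 q x) =
      pull (on k) (map_rv t (hm t h le_rfl)) q x := by
    obtain ⟨c, hc, rfl⟩ := H.exists_mk x
    rfl
  have e2 : pull (on k) h1 q (res (P_mono h) q x) =
      pull (on k) (map_rv s (hm s le_rfl h)) q x := by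
    obtain ⟨c, hc, rfl⟩ := H.exists_mk x
    rfl
  rw [e1, e2]
  have := pull_homotopy (χ := on k) HH q
  rw [pull_congr HH.one (map_rv t (hm t h le_rfl)) fun w _ => htpy_rv_one w,
    pull_congr HH.zero (map_rv s (hm s le_rfl h)) fun w _ => htpy_rv_zero w] at this
  rw [this]

/-- **[OS]** -/
theorem omegaSign_of {B C' B' B0' : ℝ} (O : OmegaOut M m x₀ B k) {hM : Mono fun t => P x₀ x₀ t}
    (b : Based m (fun q => PMa k (fun t => P x₀ x₀ t) hM q) B' C' B0') (hB : 0 ≤ B')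
    (h : ∀ j t ht, ((opP x₀).opa k hM (m * j)).r t ht ((b.om j).z t ht) =
      H962.sg k m j • (b.om j).z t ht) : OmegaSign O := by
  -- positive times
  have key : ∀ (j : ℕ) (t : ℝ), 0 < t → ∀ h1 : IsMap (tr (ℝ →ᵇ M)) (tr (ℝ →ᵇ M)) (P x₀ x₀ t)
      (P x₀ x₀ t) (rv t), pull (on k) h1 (j * m) (O.om j t) = H962.sg k m j • O.om j t := by
    intro j t ht h1
    exact sign_fam b hB (h j) (mul_comm j m) (omF O j) t ht
  intro f j t ht hf hmap
  obtain rfl := revP_eq hf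
  change pull (on k) hmap (j * m) (O.om j t) = H962.sg k m j • O.om j t
  rcases ht.eq_or_lt with rfl | ht
  · have h2 : IsMap (tr (ℝ →ᵇ M)) (tr (ℝ →ᵇ M)) (P x₀ x₀ (1:ℝ)) (P x₀ x₀ (1:ℝ)) (rv 1) :=
      map_rv 1 fun w hw => rv_mem_P hw le_rfl
    have h3 := th_nat (k := k) (zero_le_one (α := ℝ)) (j * m) hmap h2 (O.om j 1)
    have h4 : res (P_mono (zero_le_one (α := ℝ))) (j * m) (O.om j 1) = O.om j 0 :=
      O.res_om j 0 1 zero_le_one
    rw [key j 1 one_pos h2, map_smul, h4] at h3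
    exact h3
  · exact key j t ht hmap

end Vale.Agent.P216.OmSign
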