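import Vale.Agent.P216.H539.RhoX
import Vale.Agent.P216.H539.StMoore
import Vale.Agent.P216.H962.SignGoal

/-!
# P216-B, R2 (`n = 1` modulo `4`): the assembly

`SignRhoGoal`: the action of a map of degree `-1` on the families `x j`, `y j` of the free Moore
loops; `flRhoGoal_of`, `xRhoGoal_of'`.
-/

set_option linter.all false

open Set BoundedContinuousFunction

namespace Vale.Agent.P216.RhoAsm

open Vale.Agent.P216.AS Vale.Agent.P216.H901 Vale.Agent.P216.PS Vale.Agent.P216.MV337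
open Vale.Agent.P216.H754B Vale.Agent.P216.B64

/-- **R2, topology.** -/
def SignRhoGoal : Prop := ∀ m : ℕ, 3 ≤ m → m % 2 = 0 → ∀ (M : Type) [MetricSpace M]
  [CompactSpace M] (ρ : ℝ), 0 < ρ → LS.UniqSeg M ρ → Nonempty (M ≃ₜ Sph (m + 1)) →
  ∃ (x₀ : M) (C : Caps (m + 1) M x₀) (ℓ : ℝ) (Tp Tm : M → ℝ → M) (hp : MV337.Tr C.Dp x₀ ℓ Tp)
  (hm : MV337.Tr C.Dm x₀ ℓ Tm) (f : C(M, M)) (φ : ℝ → ℝ) (R : (ℝ →ᵇ M) → (ℝ →ᵇ M)),
  (∀ s, 0 < s → 0 < φ s) ∧ (∀ s, 0 < s → UMap (FL M s) (FL M (φ s)) R) ∧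
  (∀ s, 0 < s → ApproxM f (ρ / 8) s (φ s) R) ∧
  ∀ (k : Type) [Field k] (h2 : (2 : k) ≠ 0) (B C' B0 B' : ℝ), 0 ≤ B → 0 ≤ C' → 0 ≤ B' → ∀
  (b : Based m (fun q => PMa k (fun t => P x₀ x₀ t) (trivOf C hp hm).Om_mono q) B C' B0)
  (F : Free ((trivOf C hp hm).wang h2) b B'),
  (∀ j s (hs : 0 < s) (hφ : 0 < φ s) (h : UMap (FL M s) (FL M (φ s)) R),
    pull (on k) h (m * j) ((F.x j).z (φ s) hφ : Ha (tr (ℝ →ᵇ M)) (on k) (FL M (φ s)) (m * j)) =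
      ((-1 : k) ^ j • (F.x j).z s hs : Ha (tr (ℝ →ᵇ M)) (on k) (FL M s) (m * j))) ∧
  (∀ j s (hs : 0 < s) (hφ : 0 < φ s) (h : UMap (FL M s) (FL M (φ s)) R),
    pull (on k) h (m * j + (m + 1))
      ((F.y j).z (φ s) hφ : Ha (tr (ℝ →ᵇ M)) (on k) (FL M (φ s)) (m * j + (m + 1))) =
      ((-1 : k) ^ (j + 1) • (F.y j).z s hs :
        Ha (tr (ℝ →ᵇ M)) (on k) (FL M s) (m * j + (m + 1))))

/-- the action on all families of the degree -/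
theorem fam_rho {M : Type} [MetricSpace M] {k : Type} [Field k] {q : ℕ}
    {φ : ℝ → ℝ} {R : (ℝ →ᵇ M) → (ℝ →ᵇ M)} {B' : ℝ} (hB' : 0 ≤ B') {o : (XP k M q).Fam}
    (hl : (XP k M q).Line o B') {c : k} {s : ℝ} (hs : 0 < s) (hφ : 0 < φ s)
    (h : UMap (FL M s) (FL M (φ s)) R)
    (ho : pull (on k) h q (o.z (φ s) hφ : Ha (tr (ℝ →ᵇ M)) (on k) (FL M (φ s)) q) =
      (c • o.z s hs : Ha (tr (ℝ →ᵇ M)) (on k) (FL M s) q)) (z : (XP k M q).Fam) :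
    pull (on k) h q (z.z (φ s) hφ : Ha (tr (ℝ →ᵇ M)) (on k) (FL M (φ s)) q) =
      (c • z.z s hs : Ha (tr (ℝ →ᵇ M)) (on k) (FL M s) q) := by
  obtain ⟨a, ha⟩ := hl.fam hB' z
  have e1 : z.z (φ s) hφ = a • o.z (φ s) hφ := ha _ _
  have e2 : z.z s hs = a • o.z s hs := ha _ _
  rw [e1, e2]
  have e3 : ∀ y : Ha (tr (ℝ →ᵇ M)) (on k) (FL M s) q, a • (c • y) = c • (a • y) := fun y => by
    rw [smul_smul, smul_smul, mul_comm a c]
  refine (map_smul (pull (on k) h q) a _).trans ?_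
  rw [ho]
  exact e3 _

/-- **`FLRhoGoal`.** -/
theorem flRhoGoal_of (hO : OmegaGoal0) (hS : SignRhoGoal) : FLRhoGoal := by
  intro n hn h4 M _ _ ρ hρ hs he
  obtain ⟨m, rfl⟩ : ∃ m, n = m + 1 := ⟨n - 1, by omega⟩
  obtain ⟨x₀, C, ℓ, Tp, Tm, hp, hm, f, φ, R, hφ, hR, hA, hk⟩ :=
    hS m (by omega) (by omega) M ρ hρ hs he
  obtain ⟨B, hB, hO'⟩ := hO (m + 1) (by omega) M ρ hρ hs he x₀
  obtain ⟨B', hF⟩ := free_of_triv (by omega : 2 ≤ m) (trivOf C hp hm) B B 0 hB.le hB.le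
  have hB2 : 0 ≤ max (0 : ℝ) 1 + 2 * B + 2 * max B' 0 := by
    have h1 := le_max_left (0 : ℝ) 1
    have h2 := le_max_right B' 0
    linarith
  refine ⟨f, max (0 : ℝ) 1 + 2 * B + 2 * max B' 0, ?_, fun k _ h2 => ?_⟩
  · have h1 := le_max_left (0 : ℝ) 1
    have h2 := le_max_right B' 0
    linarith
  obtain ⟨O⟩ := hO' k h2
  obtain ⟨F0⟩ := hF k h2 (basedOf hB.le O)
  have F := Free.mono F0 (le_max_left B' 0)
  obtain ⟨h3, h4'⟩ := H962.signGoal m (by omega) M ρ hρ hs he x₀ C ℓ Tp Tm hp hm k h2 B B 0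
    (max B' 0) hB.le hB.le (basedOf hB.le O) F
  obtain ⟨P⟩ := nonempty_PMOut (n := m + 1) (by omega) h2 rfl hB.le (le_max_right B' 0)
    F ((trivOp C hp hm).wangOp h2) h3 fun h => h4' (by omega)
  obtain ⟨hx, hy⟩ := hk k h2 B B 0 (max B' 0) hB.le hB.le (le_max_right B' 0) (basedOf hB.le O) F
  -- the action on the generators
  have key : ∀ (q : ℕ) (c : k), (∃ o : (XP k M q).Fam, (XP k M q).Line o (max B' 0) ∧
      ∀ s (hs : 0 < s) (hφ : 0 < φ s) (h : UMap (FL M s) (FL M (φ s)) R),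
      pull (on k) h q (o.z (φ s) hφ : Ha (tr (ℝ →ᵇ M)) (on k) (FL M (φ s)) q) =
      (c • o.z s hs : Ha (tr (ℝ →ᵇ M)) (on k) (FL M s) q)) →
      FLRho (flOut P hB2) f (ρ / 8) q c := by
    rintro q c ⟨o, hl, ho⟩ s hs
    refine ⟨φ s, R, hR s hs, hφ s hs, hA s hs, ?_⟩
    have h5 := fam_rho (le_max_right B' 0) hl hs (hφ s hs) (hR s hs)
      (ho s hs (hφ s hs) (hR s hs)) (P.g q)
    change hpull k (hR s hs) q (gg P q (φ s)) = c • gg P q s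
    rw [gg_eq P q (φ s) (hφ s hs), gg_eq P q s hs]
    exact h5
  have keyx : ∀ (q j : ℕ) (c : k), q = m * j → c = (-1 : k) ^ j →
      FLRho (flOut P hB2) f (ρ / 8) q c := by
    rintro q j c rfl rfl
    exact key _ _ ⟨F.x j, F.line_x j, fun s hs hφ h => hx j s hs hφ h⟩
  have keyy : ∀ (q j : ℕ) (c : k), q = m * j + (m + 1) → c = (-1 : k) ^ (j + 1) →
      FLRho (flOut P hB2) f (ρ / 8) q c := by
    rintro q j c rfl rfl
    exact key _ _ ⟨F.y j, F.line_y j, fun s hs hφ h => hy j s hs hφ h⟩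
  have hkk : ∀ i, kk (m + 1) i = i + 1 := fun i => by
    unfold kk
    rw [if_pos (by omega)]
  refine ⟨flOut P hB2, keyx 0 0 1 (by simp) (by simp), fun i => ?_, fun i => ?_⟩
  · refine keyx _ (i + 1) _ ?_ rfl
    rw [hkk, Nat.add_sub_cancel, mul_comm]
  · refine keyy _ i _ ?_ rfl
    rw [hkk, Nat.add_sub_cancel]
    ring

/-- **`XRhoGoal`.** -/
theorem xRhoGoal_of' (hO : OmegaGoal0) (hS : SignRhoGoal) : XRhoGoal :=
  xRhoGoal_of MR.stMoore (flRhoGoal_of hO hS)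

end Vale.Agent.P216.RhoAsm
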