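import Vale.Agent.P216.MV337.ToX
import Vale.Agent.P216.MV337.Cpt
import Vale.Agent.P216.H971.Rho
import Vale.Agent.P216.B64.RhoDef

/-!
# P216-B, R2, part (G4): from the Moore loops to the energy sublevels

`rho_of`: if for each level one approximation of `w ↦ f ∘ w` on the Moore loops acts on the stable
class by the scalar `c`, then all approximations on the energy sublevels do.
-/

set_option linter.all false

namespace Vale.Agent.P216.MV337

open Set BoundedContinuousFunction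
open Vale.Agent.P216.B64 Vale.Agent.P216.AS Vale.Agent.P216.GM
open Vale.Agent.P216.H901 (SpIntl Hp)
open Vale.Agent.P216.L250 (XE LM fn XE_mono fn_rev ext_fn fn_periodic rot isCompact_XE isClosed_XE)
open Vale.Agent.P216.H971 (exists_approx exists_homotopy')

/-- `R` is (up to `η`, with linear change of time) the map `w ↦ f ∘ w` from `FL M s` to
`FL M T`. -/
def ApproxM {M : Type} [MetricSpace M] (f : M → M) (η s T : ℝ) (R : (ℝ →ᵇ M) → (ℝ →ᵇ M)) : Prop :=
  ∀ w ∈ FL M s, ∀ u ∈ Icc (0:ℝ) 1, dist (R w (T * u)) (f (w (s * u))) ≤ η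

/-- In each level one approximation of `w ↦ f ∘ w` acts by the scalar `c` in degree `q`. -/
def FLRho {M : Type} [MetricSpace M] {n : ℕ} {B : ℝ} {k : Type} [Field k] (F : FLOut M n B k)
    (f : M → M) (η : ℝ) (q : ℕ) (c : k) : Prop :=
  ∀ s, 0 < s → ∃ (T : ℝ) (R : (ℝ →ᵇ M) → (ℝ →ᵇ M)) (h : UMap (FL M s) (FL M T) R), 0 < T ∧
    ApproxM f η s T R ∧ hpull k h q (F.g q T) = c • F.g q s

theorem UMap.cont {E E' : Type} [PseudoMetricSpace E] [PseudoMetricSpace E'] {X : Set E}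
    {X' : Set E'} {f : E → E'} (h : UMap X X' f) : ContinuousOn f X := by
  intro x hx
  rw [ContinuousWithinAt, Metric.tendsto_nhdsWithin_nhds]
  intro ε hε
  obtain ⟨δ, hδ, h1⟩ := h.uc ε hε
  exact ⟨δ, hδ, fun y hy hxy => h1 y hy x hx hxy⟩

section

variable {M : Type} [MetricSpace M] [CompactSpace M] {ρ : ℝ}
  (I : SpIntl (fun t => XE M t) (fun _ => ∅) (fun t => FL M t) (fun _ => ∅) 1)
  {k : Type} [Field k] {q : ℕ} {n : ℕ} {B : ℝ} (F : FLOut M n B k)

theorem gX_res {s t : ℝ} (h : s ≤ t) : hres k (XL_mono h) q (gX I F q t) = gX I F q s := by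
  have hX : XL M s ⊆ XE M (max t 0 + 1) := (XL_mono h).trans (XL_subset (by linarith))
  rw [gX, hres_hpull _ _ (umf I (by positivity) hX le_rfl)]
  exact (gX_eq I F (by positivity) hX le_rfl _).symm

theorem umap_mono {E E' : Type} [PseudoMetricSpace E] [PseudoMetricSpace E'] {X : Set E}
    {X' Y : Set E'} {f : E → E'} (h : UMap X X' f) (hY : X' ⊆ Y) : UMap X Y f :=
  h.mono le_rfl fun _ hx => hY (h.mapsX hx)

/-- pullbacks of the generators by two close maps are equal -/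
theorem pull_close (hρ : 0 < ρ) (hU : LS.UniqSeg M ρ) {E : Type} [MetricSpace E] {A : Set E}
    (hA : IsCompact A) {s₁ s₂ : ℝ} (h₁ : 0 ≤ s₁) (h₂ : 0 ≤ s₂) {F₁ F₂ : E → LM M}
    (m₁ : UMap A (XL M s₁) F₁) (m₂ : UMap A (XL M s₂) F₂)
    (hd : ∀ a ∈ A, ∀ t, dist (fn (F₁ a) t) (fn (F₂ a) t) ≤ ρ / 4) :
    hpull k m₁ q (gX I F q s₁) = hpull k m₂ q (gX I F q s₂) := by
  have e₁ : XL M s₁ = XE M s₁ := XL_eq h₁
  have e₂ : XL M s₂ = XE M s₂ := XL_eq h₂
  obtain ⟨s', hs', G, a1, a2, -, a4, a5⟩ := exists_homotopy' hρ hU one_pos h₁ h₂ hA.isClosed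
    (UMap.cont m₁) (UMap.cont m₂) (fun a ha => e₁ ▸ m₁.mapsX ha) (fun a ha => e₂ ▸ m₂.mapsX ha) hd
  obtain ⟨T, hT⟩ : ∃ T, T = max s' (max s₁ s₂) := ⟨_, rfl⟩
  have t0 : s' ≤ T := hT ▸ le_max_left _ _
  have t1 : s₁ ≤ T := hT ▸ (le_max_left _ _).trans (le_max_right _ _)
  have t2 : s₂ ≤ T := hT ▸ (le_max_right _ _).trans (le_max_right _ _)
  have m₁' := umap_mono m₁ (XL_mono t1)
  have m₂' := umap_mono m₂ (XL_mono t2)
  rw [← gX_res I F t1, ← gX_res I F t2, hpull_hres m₁ (XL_mono t1) m₁',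
    hpull_hres m₂ (XL_mono t2) m₂']
  refine hpull_hp m₁' m₂' ⟨G, IsHtpy.of_continuousOn hA a1 (fun τ hτ a ha => ?_)
    fun _ _ i => i.elim, fun _ _ x hx => hx.elim, fun a ha => a4 a ha, fun a ha => a5 a ha⟩ _
  rw [XL_eq (hs'.trans t0)]
  exact XE_mono hs' t0 (a2 τ hτ ha)

/-- **(G4)** -/
theorem rho_gX (hρ : 0 < ρ) (hU : LS.UniqSeg M ρ)
    (hI : ∀ t, 0 < t → ∀ w ∈ FL M t, ∀ s ∈ Icc (0:ℝ) 1, fn (I.g t w) s = w (t * s))
    (f : C(M, M)) {c : k} (hF : FLRho F f (ρ / 8) q c) {s T : ℝ} {R : LM M → LM M}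
    (h : UMap (XL M s) (XL M T) R) (hs : 0 ≤ s) (hT : 0 ≤ T) (hR : Approx f (ρ / 8) s R) :
    hpull k h q (gX I F q T) = c • gX I F q s := by
  have hρ8 : 0 < ρ / 8 := by positivity
  -- the level of the Moore loops
  obtain ⟨a, ha⟩ : ∃ a, a = s + 1 + 1 := ⟨_, rfl⟩
  have ha0 : 0 < a := by linarith
  have hsE : XL M s ⊆ XE M (s + 1) := XL_subset (max_le (by linarith) (by linarith))
  have hsE1 : XL M s ⊆ XE M (a + 1) := XL_subset (max_le (by linarith) (by linarith))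
  -- an approximation in a larger level
  obtain ⟨T', hT', S, cS, mS, -, -, dS⟩ := exists_approx hρ hU f one_pos (a + 1) hρ8
  have hS : UMap (XE M (a + 1)) (XL M T') S := by
    rw [XL_eq hT']
    exact IsMap.of_continuousOn (isCompact_XE (by linarith)) cS mS fun i => i.elim
  have hS' : UMap (XL M s) (XL M T') S := hS.mono hsE1 fun _ hx => hS.mapsX (hsE1 hx)
  have hcXL : IsCompact (XL M s) := by rw [XL_eq hs]; exact isCompact_XE hs
  -- step 1
  have st1 : hpull k h q (gX I F q T) = hpull k hS' q (gX I F q T') := by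
    refine pull_close I F hρ hU hcXL hT hT' h hS' fun g hg t => ?_
    have b1 := hR g hg t
    have b2 := dS g (hsE1 hg) t
    have b3 := dist_triangle_right (fn (R g) t) (fn (S g) t) (f (fn g t))
    linarith
  -- step 2
  have hg : UMap (FL M a) (XE M (a + 1)) (I.g a) := umg I ha0 le_rfl le_rfl
  have hg2 : UMap (FL M (s + 1 + 1)) (XE M (a + 1)) (I.g a) := ha ▸ hg
  have hf : UMap (XL M s) (FL M (s + 1 + 1)) (I.f (s + 1)) := umf I (by linarith) hsE le_rfl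
  have st2 : hpull k hf q (hpull k hg2 q (hpull k hS q (gX I F q T'))) =
      hpull k hS' q (gX I F q T') := by
    rw [hpull_fg I (by linarith) hsE (by linarith) le_rfl hf hg2 hsE1]
    exact hres_hpull hS hsE1 hS' _
  -- step 3
  obtain ⟨V, Rm, hRm, hV, aR, eR⟩ := hF a ha0
  have hV1 : XE M (V + 1) = XL M (V + 1) := (XL_eq (by linarith)).symm
  have hgV : UMap (FL M V) (XL M (V + 1)) (I.g V) := by
    rw [← hV1]
    exact umg I hV le_rfl le_rfl
  have yV : F.g q V = hpull k hgV q (gX I F q (V + 1)) := by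
    have hfV : UMap (XL M (V + 1)) (FL M (V + 1 + 1)) (I.f (V + 1)) :=
      umf I (by linarith) hV1.symm.subset le_rfl
    have hfV' : UMap (XE M (V + 1)) (FL M (V + 1 + 1)) (I.f (V + 1)) :=
      umf I (by linarith) le_rfl le_rfl
    have hgV' : UMap (FL M V) (XE M (V + 1)) (I.g V) := umg I hV le_rfl le_rfl
    have e1 := hpull_gf I hV hgV' hfV' le_rfl (F.g q (V + 1 + 1))
    rw [F.res_g q _ _ hV (by linarith)] at e1
    rw [gX_eq I F (by linarith) hV1.symm.subset le_rfl hfV, ← e1,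
      hpull_hpull _ _ (hfV'.comp hgV'), hpull_hpull _ _ (hfV.comp hgV)]
  have st3 : hpull k hg q (hpull k hS q (gX I F q T')) = c • F.g q a := by
    rw [hpull_hpull _ _ (hS.comp hg), ← eR, yV, hpull_hpull _ _ (hgV.comp hRm)]
    refine pull_close I F hρ hU (isCompact_FL ha0.le) hT' (by linarith) _ _ fun w hw t => ?_
    have hw1 : I.g a w ∈ XE M (a + 1) := hg.mapsX hw
    have b2 := dS _ hw1 (Int.fract t)
    have ht : Int.fract t ∈ Icc (0:ℝ) 1 := ⟨Int.fract_nonneg t, (Int.fract_lt_one t).le⟩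
    rw [hI a ha0 w hw _ ht] at b2
    have b1 := aR w hw _ ht
    rw [← hI V hV (Rm w) (hRm.mapsX hw) _ ht] at b1
    have per : ∀ γ : LM M, fn γ t = fn γ (Int.fract t) := fun γ => by
      have := (fn_periodic γ).sub_int_mul_eq ⌊t⌋ (x := t)
      rw [mul_one] at this
      exact this.symm
    show dist (fn (S (I.g a w)) t) (fn (I.g V (Rm w)) t) ≤ ρ / 4
    rw [per, per (I.g V (Rm w))]
    have b3 := dist_triangle_right (fn (S (I.g a w)) (Int.fract t)) (fn (I.g V (Rm w)) (Int.fract t))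
      (f (w (a * Int.fract t)))
    linarith
  -- conclusion
  rw [st1, ← st2]
  have st3' : hpull k hg2 q (hpull k hS q (gX I F q T')) = c • F.g q (s + 1 + 1) := by
    subst ha
    exact st3
  rw [st3', map_smul, gX_eq I F (by linarith) hsE le_rfl hf]

theorem rho_of (hρ : 0 < ρ) (hU : LS.UniqSeg M ρ) (hB : 0 < B)
    (hI : ∀ t, 0 < t → ∀ w ∈ FL M t, ∀ s ∈ Icc (0:ℝ) 1, fn (I.g t w) s = w (t * s))
    (f : C(M, M)) {c : k} (hF : FLRho F f (ρ / 8) q c) (s T : ℝ) (R : LM M → LM M)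
    (h : UMap (XL M s) (XL M T) R) (hs : 0 ≤ s) (hT : 0 ≤ T) (hR : Approx f (ρ / 8) s R) :
    hpull k h q ((xOut I F hB hI).g q T) = c • (xOut I F hB hI).g q s :=
  rho_gX I F hρ hU hI f hF h hs hT hR

end

/-- **R2 at the level of the Moore loops.** -/
def FLRhoGoal : Prop := ∀ n : ℕ, 4 ≤ n → n % 4 = 1 → ∀ (M : Type) [MetricSpace M]
  [CompactSpace M] (ρ : ℝ), 0 < ρ → LS.UniqSeg M ρ → Nonempty (M ≃ₜ B64.Sph n) →
  ∃ (f : C(M, M)) (B : ℝ), 0 < B ∧ ∀ (k : Type) [Field k], (2 : k) ≠ 0 →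
  ∃ F : FLOut M n B k, FLRho F f (ρ / 8) 0 1 ∧
    (∀ i, FLRho F f (ρ / 8) (kk n i * (n - 1)) ((-1 : k) ^ (i + 1))) ∧
    ∀ i, FLRho F f (ρ / 8) (kk n i * (n - 1) + 1) ((-1 : k) ^ (i + 1))

/-- **XRhoGoal** from the Moore loops. -/
theorem xRhoGoal_of (hM : StMoore) (hF : FLRhoGoal) : XRhoGoal := by
  intro n hn h4 M _ _ ρ hρ hU he
  obtain ⟨f, B, hB, hF'⟩ := hF n hn h4 M ρ hρ hU he
  obtain ⟨I, hI⟩ := hM M ρ hρ hU 1 one_pos
  refine ⟨f, ρ / 8, B + 3, by positivity, by linarith, fun k _ h2 => ?_⟩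
  obtain ⟨F, h0, hx, hy⟩ := hF' k h2
  refine ⟨xOut I F hB hI, fun s T R h hs hT hR => ⟨?_, fun i => ?_, fun i => ?_⟩⟩
  · have := rho_of I F hρ hU hB hI f h0 s T R h hs hT hR
    rw [one_smul] at this
    exact this
  · exact rho_of I F hρ hU hB hI f (hx i) s T R h hs hT hR
  · exact rho_of I F hρ hU hB hI f (hy i) s T R h hs hT hR

end Vale.Agent.P216.MV337
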