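import Vale.Agent.P216.H971.RList
import Vale.Agent.P216.H539.RhoX
import Vale.Agent.P216.H539.StMoore

/-!
# P216-B, R2, [R-F]: transport from the Moore loops to the energy sublevels
-/

set_option linter.all false

open Set BoundedContinuousFunction

namespace Vale.Agent.P216.ToXL

open Vale.Agent.P216.AS Vale.Agent.P216.H901 Vale.Agent.P216.PS Vale.Agent.P216.MV337
open Vale.Agent.P216.B64 Vale.Agent.P216.H754B Vale.Agent.P216.H971
open Vale.Agent.P216.GM
open Vale.Agent.P216.L250 (XE LM fn XE_mono fn_periodic isCompact_XE)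

variable {M : Type} [MetricSpace M] [CompactSpace M] {ρ : ℝ} {k : Type} [Field k] {q : ℕ}

/-- pullbacks of a family by two close maps are equal -/
theorem pull_closeX (hρ : 0 < ρ) (hU : LS.UniqSeg M ρ) (z : ∀ t, HU k (XL M t) q)
    (hz : ∀ s t (h : s ≤ t), hres k (XL_mono h) q (z t) = z s)
    {E : Type} [MetricSpace E] {A : Set E}
    (hA : IsCompact A) {s₁ s₂ : ℝ} (h₁ : 0 ≤ s₁) (h₂ : 0 ≤ s₂) {F₁ F₂ : E → LM M}
    (m₁ : UMap A (XL M s₁) F₁) (m₂ : UMap A (XL M s₂) F₂)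
    (hd : ∀ a ∈ A, ∀ t, dist (fn (F₁ a) t) (fn (F₂ a) t) ≤ ρ / 4) :
    hpull k m₁ q (z s₁) = hpull k m₂ q (z s₂) := by
  have e₁ : XL M s₁ = XE M s₁ := XL_eq h₁
  have e₂ : XL M s₂ = XE M s₂ := XL_eq h₂
  obtain ⟨s', hs', G, a1, a2, -, a4, a5⟩ := exists_homotopy' hρ hU one_pos h₁ h₂ hA.isClosed
    (UMap.cont m₁) (UMap.cont m₂) (fun a ha => e₁ ▸ m₁.mapsX ha) (fun a ha => e₂ ▸ m₂.mapsX ha) hd
  obtain ⟨T, hT⟩ : ∃ T, T = max s' (max s₁ s₂) := ⟨_, rfl⟩
  have t0 : s' ≤ T := hT ▸ le_max_left _ _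
  have t1 : s₁ ≤ T := hT ▸ (le_max_left _ _).trans (le_max_right _ _)
  have t2 : s₂ ≤ T := hT ▸ (le_max_right _ _).trans (le_max_right _ _)
  have m₁' := umap_mono m₁ (XL_mono t1)
  have m₂' := umap_mono m₂ (XL_mono t2)
  rw [← hz _ _ t1, ← hz _ _ t2, hpull_hres m₁ (XL_mono t1) m₁',
    hpull_hres m₂ (XL_mono t2) m₂']
  refine hpull_hp m₁' m₂' ⟨G, IsHtpy.of_continuousOn hA a1 (fun τ hτ a ha => ?_)
    fun _ _ i => i.elim, fun _ _ x hx => hx.elim, fun a ha => a4 a ha, fun a ha => a5 a ha⟩ _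
  rw [XL_eq (hs'.trans t0)]
  exact XE_mono hs' t0 (a2 τ hτ ha)

section

variable (I : SpIntl (fun t => XE M t) (fun _ => ∅) (fun t => FL M t) (fun _ => ∅) 1)
  (z : ∀ t, HU k (XL M t) q) (hz : ∀ s t (h : s ≤ t), hres k (XL_mono h) q (z t) = z s)

theorem umgX {t : ℝ} (ht : 0 < t) : UMap (FL M t) (XL M (t + 1)) (I.g t) :=
  umg I ht le_rfl (XL_eq (by linarith : 0 ≤ t + 1)).symm.subset

/-- the family on the Moore loops -/
noncomputable def oF (ht : ∀ s t (h : s ≤ t), hres k (XL_mono h) q (z t) = z s) :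
    (XP k M q).Fam where
  z t ht := hpull k (umgX I ht) q (z (t + 1))
  comp s t hs h := by
    have ht' : 0 < t := hs.trans_le h
    have h1 : UMap (FL M s) (XL M (t + 1)) (I.g t) := (umgX I ht').mono (FL_mono h)
      fun _ hx => (umgX I ht').mapsX (FL_mono h hx)
    have h2 : UMap (FL M s) (XL M (t + 1)) (I.g s) := umap_mono (umgX I hs) (XL_mono (by linarith))
    have e1 : hres k (FL_mono h) q (hpull k (umgX I ht') q (z (t + 1))) =
        hpull k h1 q (z (t + 1)) := hres_hpull _ _ _ _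
    have e2 : hpull k (umgX I hs) q (z (s + 1)) = hpull k h2 q (z (t + 1)) := by
      rw [← ht (s + 1) (t + 1) (by linarith), hpull_hres _ _ h2]
    change hres k (FL_mono h) q (hpull k (umgX I ht') q (z (t + 1))) =
      hpull k (umgX I hs) q (z (s + 1))
    rw [e1, e2]
    exact (hpull_g I hs h le_rfl (XL_eq (by linarith : 0 ≤ t + 1)).symm.subset h2 h1 _).symm

end

/-- **[R-F]** -/
theorem stToXL : StToXL := by
  intro M _ _ ρ hρ hU f φ R δ lam η hη hR k _ n B X q e he s T R' h hs hT hR'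
  obtain ⟨I, hI⟩ := MR.stMoore M ρ hρ hU 1 one_pos
  have hρ8 : 0 < ρ / 8 := by positivity
  have hz : ∀ s t (h : s ≤ t), hres k (XL_mono h) q (X.g q t) = X.g q s := X.res_g q
  -- the level of the Moore loops
  obtain ⟨N, hN⟩ := exists_nat_gt ((s + 1 + 1) / δ)
  have hN0 : 0 < N := by
    have : (0:ℝ) < N := lt_of_le_of_lt (div_nonneg (by linarith) hR.δ_pos.le) hN
    exact_mod_cast this
  obtain ⟨a, ha⟩ : ∃ a, a = (N:ℝ) * δ := ⟨_, rfl⟩
  have has : s + 1 + 1 ≤ a := by
    rw [ha]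
    rw [div_lt_iff₀ hR.δ_pos] at hN
    exact hN.le
  have ha0 : 0 < a := by linarith
  have hsE : XL M s ⊆ XE M (s + 1) := XL_subset (max_le (by linarith) (by linarith))
  have hsE1 : XL M s ⊆ XE M (a + 1) := XL_subset (max_le (by linarith) (by linarith))
  -- an approximation in a larger level
  obtain ⟨T', hT', S, cS, mS, -, -, dS⟩ := exists_approx hρ hU f one_pos (a + 1) hρ8
  have hS : UMap (XE M (a + 1)) (XL M T') S := by
    rw [XL_eq hT']
    exact IsMap.of_continuousOn (isCompact_XE (by linarith)) cS mS fun i => i.elim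
  have hS' : UMap (XL M s) (XL M T') S := hS.mono hsE1 fun _ hx => hS.mapsX (hsE1 hx)
  have hcXL : IsCompact (XL M s) := by rw [XL_eq hs]; exact isCompact_XE hs
  -- step 1
  have st1 : hpull k h q (X.g q T) = hpull k hS' q (X.g q T') := by
    refine pull_closeX hρ hU _ hz hcXL hT hT' h hS' fun g hg t => ?_
    have b1 := hR' g hg t
    have b2 := dS g (hsE1 hg) t
    have b3 := dist_triangle_right (fn (R' g) t) (fn (S g) t) (f (fn g t))
    linarith
  -- step 2
  have hg : UMap (FL M a) (XE M (a + 1)) (I.g a) := umg I ha0 le_rfl le_rfl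
  have hg2 : UMap (FL M (s + 1 + 1)) (XE M (a + 1)) (I.g a) := umg I ha0 has le_rfl
  have hf : UMap (XL M s) (FL M (s + 1 + 1)) (I.f (s + 1)) := umf I (by linarith) hsE le_rfl
  have st2 : hpull k hf q (hpull k hg2 q (hpull k hS q (X.g q T'))) =
      hpull k hS' q (X.g q T') := by
    rw [hpull_fg I (by linarith) hsE (by linarith) le_rfl hf hg2 hsE1]
    exact hres_hpull hS hsE1 hS' _
  -- step 3
  obtain ⟨V, hV⟩ : ∃ V, V = lam * a := ⟨_, rfl⟩
  have hV0 : 0 < V := by rw [hV]; exact mul_pos hR.lam_pos ha0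
  have hφa : 0 < φ a := hR.φ_pos a ha0
  have hVφ : V ≤ φ a := by rw [hV]; exact hR.φ_le a ha0
  have hRa : UMap (FL M a) (FL M (φ a)) R := hR.map a ha0
  have hRV : UMap (FL M a) (FL M V) R := hRa.mono le_rfl fun w hw => by
    rw [hV]
    rw [ha] at hw ⊢
    exact hR.dur N hN0 w hw
  have hgV : UMap (FL M V) (XL M (V + 1)) (I.g V) := umgX I hV0
  have eo : hpull k hRa q ((oF I (X.g q) hz).z (φ a) hφa) = e • (oF I (X.g q) hz).z a ha0 :=
    he (oF I (X.g q) hz) a (φ a) ha0 hφa le_rfl hRa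
  have eV : hpull k hRV q ((oF I (X.g q) hz).z V hV0) = e • (oF I (X.g q) hz).z a ha0 := by
    have e1 : (oF I (X.g q) hz).z V hV0 = hres k (FL_mono hVφ) q
      ((oF I (X.g q) hz).z (φ a) hφa) := ((oF I (X.g q) hz).comp V (φ a) hV0 hVφ).symm
    exact (congrArg (hpull k hRV q) e1).trans ((hpull_hres hRV (FL_mono hVφ) hRa _).trans eo)
  have st3 : hpull k hg q (hpull k hS q (X.g q T')) = e • (oF I (X.g q) hz).z a ha0 := by
    have e1 : (oF I (X.g q) hz).z V hV0 = hpull k hgV q (X.g q (V + 1)) := rfl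
    rw [← eV, e1, hpull_hpull _ _ (hS.comp hg), hpull_hpull _ _ (hgV.comp hRV)]
    refine pull_closeX hρ hU _ hz (isCompact_FL ha0.le) hT' (by linarith) _ _ fun w hw t => ?_
    have hw1 : I.g a w ∈ XE M (a + 1) := hg.mapsX hw
    have b2 := dS _ hw1 (Int.fract t)
    have ht : Int.fract t ∈ Icc (0:ℝ) 1 := ⟨Int.fract_nonneg t, (Int.fract_lt_one t).le⟩
    rw [hI a ha0 w hw _ ht] at b2
    have b1 := hR.close a ha0 w hw (a * Int.fract t)
    rw [← mul_assoc, ← hV, ← hI V hV0 (R w) (hRV.mapsX hw) _ ht] at b1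
    have per : ∀ γ : LM M, fn γ t = fn γ (Int.fract t) := fun γ => by
      have := (fn_periodic γ).sub_int_mul_eq ⌊t⌋ (x := t)
      rw [mul_one] at this
      exact this.symm
    show dist (fn (S (I.g a w)) t) (fn (I.g V (R w)) t) ≤ ρ / 4
    rw [per, per (I.g V (R w))]
    have b3 := dist_triangle_right (fn (S (I.g a w)) (Int.fract t)) (fn (I.g V (R w)) (Int.fract t))
      (f (w (a * Int.fract t)))
    linarith
  -- the class on the energy sublevel
  have st4 : hpull k hf q (hres k (FL_mono has) q ((oF I (X.g q) hz).z a ha0)) = X.g q s := by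
    have h1 : UMap (FL M (s + 1 + 1)) (XL M (a + 1)) (I.g a) := by
      have := hg2
      rwa [← XL_eq (M := M) (by linarith : (0:ℝ) ≤ a + 1)] at this
    have hss : XL M s ⊆ XL M (a + 1) := XL_mono (by linarith)
    have e1 : hres k (FL_mono has) q ((oF I (X.g q) hz).z a ha0) = hpull k h1 q (X.g q (a + 1)) :=
      hres_hpull _ _ _ _
    rw [e1, hpull_fg I (by linarith) hsE (by linarith)
      (XL_eq (by linarith : (0:ℝ) ≤ a + 1)).symm.subset hf h1 hss]
    exact hz s (a + 1) (by linarith)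
  rw [st1, ← st2]
  have e5 : hpull k hg2 q (hpull k hS q (X.g q T')) =
      hres k (FL_mono has) q (hpull k hg q (hpull k hS q (X.g q T'))) :=
    (hres_hpull hg (FL_mono has) hg2 _).symm
  have e6 : ∀ (u : HU k (FL M a) q), hpull k hf q (hres k (FL_mono has) q u) = X.g q s →
      hpull k hf q (hres k (FL_mono has) q (e • u)) = e • X.g q s := fun u hu => by
    rw [map_smul, map_smul, hu]
  rw [e5]
  exact (congrArg (fun y => hpull k hf q (hres k (FL_mono has) q y)) st3).trans (e6 _ st4)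

end Vale.Agent.P216.ToXL
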